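import Mathlib

/-!
# A small-bias family of `±1`-valued functions on the cube, and its moments
-/

namespace Crest.Agent.R291

open Finset

variable {P : ℕ} [Fact P.Prime] {m t : ℕ}

/-- Polynomial hashing of a bit vector. -/
def hashU (a : ZMod P) (z : Fin m → Bool) : ZMod P := ∑ i, if z i then a ^ (i : ℕ) else 0

/-- The parity of the representative. -/
noncomputable def par (v : ZMod P) : ℝ := (-1) ^ v.val

/-- The hard function: parity of a polynomial at the hash value. -/
noncomputable def chi (a : ZMod P) (c : Fin t → ZMod P) (z : Fin m → Bool) : ℝ :=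
  par (∑ j, c j * hashU a z ^ (j : ℕ))

omit [Fact P.Prime] in
theorem abs_par (v : ZMod P) : |par v| = 1 := by simp [par]

theorem abs_chi (a : ZMod P) (c : Fin t → ZMod P) (z : Fin m → Bool) : |chi a c z| = 1 :=
  abs_par _

theorem abs_sum_par : |∑ v : ZMod P, par v| ≤ 1 := by
  have hP : P ≠ 0 := (Fact.out : P.Prime).ne_zero
  have : ∑ v : ZMod P, par v = ∑ i ∈ range P, (-1 : ℝ) ^ i := by
    refine sum_bij (fun v _ => v.val) (fun v _ => mem_range.2 (ZMod.val_lt v))
      (fun v _ v' _ h => ZMod.val_injective _ h) (fun i hi => ⟨(i : ZMod P), mem_univ _, ?_⟩)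
      (fun v _ => rfl)
    exact ZMod.val_cast_of_lt (mem_range.1 hi)
  rw [this, neg_one_geom_sum]
  split_ifs <;> simp

theorem card_collision {y y' : Fin m → Bool} (h : y ≠ y') :
    (univ.filter fun a : ZMod P => hashU a y = hashU a y').card ≤ m := by
  set q : Polynomial (ZMod P) := ∑ i : Fin m,
    Polynomial.monomial (i : ℕ) ((if y i then 1 else 0) - (if y' i then 1 else 0)) with hq
  have hcoeff : ∀ i : Fin m, q.coeff i = (if y i then 1 else 0) - (if y' i then 1 else 0) := by
    intro i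
    rw [hq, Polynomial.finsetSum_coeff, sum_eq_single i]
    · simp
    · intro j _ hj
      rw [Polynomial.coeff_monomial, if_neg (fun hh => hj (Fin.ext hh))]
    · simp
  have hq0 : q ≠ 0 := by
    obtain ⟨i, hi⟩ := Function.ne_iff.1 h
    intro h0
    have := hcoeff i
    rw [h0] at this
    revert this hi
    cases y i <;> cases y' i <;> simp
  have hdeg : q.natDegree ≤ m := by
    refine Polynomial.natDegree_sum_le_of_forall_le _ _ fun i _ => ?_
    exact (Polynomial.natDegree_monomial_le _).trans i.2.le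
  have hsub : (univ.filter fun a : ZMod P => hashU a y = hashU a y') ⊆ q.roots.toFinset := by
    intro a ha
    rw [Multiset.mem_toFinset, Polynomial.mem_roots hq0, Polynomial.IsRoot.def, hq,
      Polynomial.eval_finsetSum]
    have := (mem_filter.1 ha).2
    unfold hashU at this
    simp only [Polynomial.eval_monomial, sub_mul, sum_sub_distrib, ite_mul, one_mul, zero_mul]
    exact sub_eq_zero.2 this
  exact (card_le_card hsub).trans ((Multiset.toFinset_card_le _).trans
    ((Polynomial.card_roots' q).trans hdeg))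

theorem abs_sum_prod_par (u : Fin t → ZMod P) (i0 : Fin t) (hu : ∀ i, i ≠ i0 → u i ≠ u i0) :
    (P : ℝ) * |∑ c : Fin t → ZMod P, ∏ i, par (∑ j, c j * u i ^ (j : ℕ))| ≤ P ^ t := by
  set q : Polynomial (ZMod P) := ∏ i ∈ univ.erase i0, (Polynomial.X - Polynomial.C (u i)) with hq
  have hdeg : q.natDegree < t := by
    have h1 : q.natDegree ≤ ∑ i ∈ univ.erase i0, (Polynomial.X - Polynomial.C (u i)).natDegree :=
      Polynomial.natDegree_prod_le _ _
    simp only [Polynomial.natDegree_X_sub_C, sum_const, card_erase_of_mem (mem_univ i0), card_univ,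
      Fintype.card_fin, smul_eq_mul, mul_one] at h1
    have := i0.pos
    omega
  have heval : ∀ x, ∑ j : Fin t, q.coeff j * x ^ (j : ℕ) = q.eval x := by
    intro x
    rw [Polynomial.eval_eq_sum_range' hdeg, Fin.sum_univ_eq_sum_range
      (fun j => q.coeff j * x ^ j)]
  have hz : ∀ i, i ≠ i0 → q.eval (u i) = 0 := by
    intro i hi
    rw [hq, Polynomial.eval_prod]
    exact prod_eq_zero (mem_erase.2 ⟨hi, mem_univ _⟩) (by simp)
  have hD : q.eval (u i0) ≠ 0 := by
    rw [hq, Polynomial.eval_prod]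
    refine prod_ne_zero_iff.2 fun i hi => ?_
    simp only [Polynomial.eval_sub, Polynomial.eval_X, Polynomial.eval_C]
    exact sub_ne_zero.2 (hu i (mem_erase.1 hi).1).symm
  clear_value q
  obtain ⟨Φ, hΦ⟩ : ∃ Φ : (Fin t → ZMod P) → ℝ,
    ∀ c, Φ c = ∏ i, par (∑ j, c j * u i ^ (j : ℕ)) := ⟨_, fun _ => rfl⟩
  simp only [← hΦ]
  have h1 : ∀ s : ZMod P, ∑ c, Φ c = ∑ c, Φ (c + fun j : Fin t => s * q.coeff j) := fun s => by
    rw [← Equiv.sum_comp (Equiv.addRight fun j : Fin t => s * q.coeff j) Φ]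
    rfl
  have h2 : ∀ (c : Fin t → ZMod P) (s : ZMod P), Φ (c + fun j : Fin t => s * q.coeff j) =
      par (∑ j, c j * u i0 ^ (j : ℕ) + s * q.eval (u i0)) *
        ∏ i ∈ univ.erase i0, par (∑ j, c j * u i ^ (j : ℕ)) := by
    intro c s
    have e : ∀ i, ∑ j, (c + fun j : Fin t => s * q.coeff j) j * u i ^ (j : ℕ) =
        ∑ j, c j * u i ^ (j : ℕ) + s * q.eval (u i) := by
      intro i
      rw [← heval, mul_sum, ← sum_add_distrib]
      refine sum_congr rfl fun j _ => ?_
      simp only [Pi.add_apply]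
      ring
    simp only [hΦ, e]
    rw [← mul_prod_erase _ _ (mem_univ i0)]
    congr 1
    refine prod_congr rfl fun i hi => ?_
    rw [hz i (mem_erase.1 hi).1, mul_zero, add_zero]
  have h3 : ∀ v : ZMod P, ∑ s : ZMod P, par (v + s * q.eval (u i0)) = ∑ x : ZMod P, par x :=
    fun v => by
      rw [← Equiv.sum_comp ((Equiv.mulRight₀ _ hD).trans (Equiv.addLeft v)) par]
      rfl
  have h4 : (P : ℝ) * ∑ c, Φ c = ∑ c : Fin t → ZMod P, (∑ x : ZMod P, par x) *
      ∏ i ∈ univ.erase i0, par (∑ j, c j * u i ^ (j : ℕ)) := by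
    calc (P : ℝ) * ∑ c, Φ c = ∑ s : ZMod P, ∑ c, Φ c := by simp [ZMod.card]
      _ = ∑ s : ZMod P, ∑ c, Φ (c + fun j : Fin t => s * q.coeff j) :=
        sum_congr rfl fun s _ => h1 s
      _ = _ := by
        rw [sum_comm]
        refine sum_congr rfl fun c _ => ?_
        simp only [h2]
        rw [← sum_mul, h3]
  have h5 : (P : ℝ) * |∑ c, Φ c| = |(P : ℝ) * ∑ c, Φ c| := by
    rw [abs_mul, Nat.abs_cast]
  rw [h5, h4]
  refine (abs_sum_le_sum_abs _ _).trans ?_
  refine (sum_le_card_nsmul _ _ 1 fun c _ => ?_).trans (by simp [ZMod.card])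
  rw [abs_mul, abs_prod]
  simp only [abs_par, prod_const_one, mul_one]
  exact abs_sum_par

theorem bias_le (ys : Fin t → Fin m → Bool) (i0 : Fin t) (h : ∀ i, i ≠ i0 → ys i ≠ ys i0) :
    ∑ a : ZMod P, ∑ c : Fin t → ZMod P, ∏ i, chi a c (ys i) ≤ (t * m + 1) * P ^ t := by
  have hP : (0 : ℝ) < P := by exact_mod_cast (Fact.out : P.Prime).pos
  set B := univ.filter fun a : ZMod P => ∃ i, i ≠ i0 ∧ hashU a (ys i) = hashU a (ys i0) with hB
  have hBc : B.card ≤ t * m := by
    have : B ⊆ (univ.erase i0).biUnion fun i =>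
        univ.filter fun a : ZMod P => hashU a (ys i) = hashU a (ys i0) := by
      intro a ha
      obtain ⟨i, hi, he⟩ := (mem_filter.1 ha).2
      exact mem_biUnion.2 ⟨i, mem_erase.2 ⟨hi, mem_univ _⟩, mem_filter.2 ⟨mem_univ _, he⟩⟩
    refine (card_le_card this).trans (card_biUnion_le.trans ?_)
    refine (sum_le_card_nsmul _ _ m fun i hi => card_collision (h i (mem_erase.1 hi).1)).trans ?_
    rw [smul_eq_mul]
    exact Nat.mul_le_mul_right _ ((card_erase_le).trans (by simp))
  have h1 : ∀ a : ZMod P, ∑ c : Fin t → ZMod P, ∏ i, chi a c (ys i) ≤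
      (if a ∈ B then (P : ℝ) ^ t else 0) + P ^ t / P := by
    intro a
    by_cases ha : a ∈ B
    · rw [if_pos ha]
      refine le_trans ?_ (le_add_of_nonneg_right (by positivity))
      refine (sum_le_card_nsmul _ _ 1 fun c _ => ?_).trans (by simp [ZMod.card])
      refine (le_abs_self _).trans ?_
      rw [abs_prod]
      simp [abs_chi]
    · rw [if_neg ha, zero_add, le_div_iff₀ hP, mul_comm]
      refine le_trans (mul_le_mul_of_nonneg_left (le_abs_self _) hP.le) ?_
      refine abs_sum_prod_par (fun i => hashU a (ys i)) i0 fun i hi he => ha ?_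
      exact mem_filter.2 ⟨mem_univ _, i, hi, he⟩
  refine (sum_le_sum fun a _ => h1 a).trans ?_
  rw [sum_add_distrib, sum_ite_mem, univ_inter, sum_const, sum_const, card_univ, ZMod.card,
    nsmul_eq_mul, nsmul_eq_mul, mul_div_cancel₀ _ hP.ne', add_mul, one_mul]
  have : (B.card : ℝ) ≤ t * m := by exact_mod_cast hBc
  gcongr

theorem card_small_subsets {β : Type*} [DecidableEq β] (X : Finset β) (n : ℕ) :
    (X.powerset.filter fun S => S.card ≤ n).card ≤ (X.card + 1) ^ n := by
  have h1 : (X.powerset.filter fun S => S.card ≤ n) ⊆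
      (range (n + 1)).biUnion fun i => powersetCard i X := by
    intro S hS
    rw [mem_filter, mem_powerset] at hS
    exact mem_biUnion.2 ⟨S.card, mem_range.2 (Nat.lt_succ_of_le hS.2),
      mem_powersetCard.2 ⟨hS.1, rfl⟩⟩
  refine (card_le_card h1).trans (card_biUnion_le.trans ?_)
  rw [add_pow]
  refine sum_le_sum fun i hi => ?_
  rw [card_powersetCard, one_pow, mul_one]
  have : 0 < n.choose i := Nat.choose_pos (Nat.le_of_lt_succ (mem_range.1 hi))
  exact (Nat.choose_le_pow _ _).trans (Nat.le_mul_of_pos_right _ this)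

theorem card_bad_tuples {β : Type*} [DecidableEq β] (Z : Finset β) (h : ℕ) :
    ((Fintype.piFinset fun _ : Fin (2 * h) => Z).filter
      fun ys => ∀ i0, ∃ i, i ≠ i0 ∧ ys i = ys i0).card ≤ (Z.card + 1) ^ h * h ^ (2 * h) := by
  have h1 : ((Fintype.piFinset fun _ : Fin (2 * h) => Z).filter
      fun ys => ∀ i0, ∃ i, i ≠ i0 ∧ ys i = ys i0) ⊆
      (Z.powerset.filter fun S => S.card ≤ h).biUnion fun S =>
        Fintype.piFinset fun _ : Fin (2 * h) => S := by
    intro ys hys
    rw [mem_filter, Fintype.mem_piFinset] at hys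
    refine mem_biUnion.2 ⟨univ.image ys, mem_filter.2 ⟨mem_powerset.2 ?_, ?_⟩, ?_⟩
    · intro y hy
      obtain ⟨i, _, rfl⟩ := mem_image.1 hy
      exact hys.1 i
    · have h2 := card_eq_sum_card_image ys (univ : Finset (Fin (2 * h)))
      have h3 : ∀ y ∈ univ.image ys, 2 ≤ (univ.filter fun i => ys i = y).card := by
        intro y hy
        obtain ⟨i0, _, rfl⟩ := mem_image.1 hy
        obtain ⟨i, hi, he⟩ := hys.2 i0
        exact one_lt_card.2 ⟨i, by simp [he], i0, by simp, hi⟩
      have h4 := card_nsmul_le_sum _ _ _ h3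
      rw [← h2] at h4
      simp only [card_univ, Fintype.card_fin, smul_eq_mul] at h4
      omega
    · exact Fintype.mem_piFinset.2 fun i => mem_image_of_mem _ (mem_univ _)
  refine (card_le_card h1).trans (card_biUnion_le.trans ?_)
  refine (sum_le_card_nsmul _ _ (h ^ (2 * h)) fun S hS => ?_).trans ?_
  · rw [Fintype.card_piFinset, prod_const, card_univ, Fintype.card_fin]
    exact Nat.pow_le_pow_left (mem_filter.1 hS).2 _
  · rw [smul_eq_mul]
    exact Nat.mul_le_mul_right _ (card_small_subsets Z h)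

theorem moment_le (h : ℕ) (Z : Finset (Fin m → Bool)) :
    ∑ a : ZMod P, ∑ c : Fin (2 * h) → ZMod P, (∑ y ∈ Z, chi a c y) ^ (2 * h) ≤
      (Z.card + 1) ^ h * h ^ (2 * h) * P ^ (2 * h + 1) +
        Z.card ^ (2 * h) * ((2 * h * m + 1) * P ^ (2 * h)) := by
  simp only [sum_pow']
  rw [sum_congr rfl fun a _ => sum_comm, sum_comm]
  have h1 : ∀ ys : Fin (2 * h) → Fin m → Bool,
      ∑ a : ZMod P, ∑ c : Fin (2 * h) → ZMod P, ∏ i, chi a c (ys i) ≤
      (if ∀ i0, ∃ i, i ≠ i0 ∧ ys i = ys i0 then (P : ℝ) ^ (2 * h + 1) else 0) +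
        (2 * h * m + 1) * P ^ (2 * h) := by
    intro ys
    split_ifs with hb
    · refine le_trans ?_ (le_add_of_nonneg_right (by positivity))
      refine (sum_le_card_nsmul _ _ ((P : ℝ) ^ (2 * h)) fun a _ => ?_).trans
        (by simp [ZMod.card, pow_succ'])
      refine (sum_le_card_nsmul _ _ 1 fun c _ => ?_).trans (by simp [ZMod.card])
      refine (le_abs_self _).trans ?_
      rw [abs_prod]
      simp [abs_chi]
    · push Not at hb
      obtain ⟨i0, hi0⟩ := hb
      have := bias_le (P := P) ys i0 hi0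
      push_cast at this
      linarith
  refine (sum_le_sum fun ys _ => h1 ys).trans ?_
  rw [sum_add_distrib, ← sum_filter, sum_const, sum_const, Fintype.card_piFinset, prod_const,
    card_univ, Fintype.card_fin, nsmul_eq_mul, nsmul_eq_mul]
  have h2 : ((((Fintype.piFinset fun _ : Fin (2 * h) => Z).filter
      fun ys => ∀ i0, ∃ i, i ≠ i0 ∧ ys i = ys i0).card : ℕ) : ℝ) ≤
      (Z.card + 1) ^ h * h ^ (2 * h) := by exact_mod_cast card_bad_tuples Z h
  push_cast
  gcongr

end Crest.Agent.R291
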