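import Crest.Agent.Lib.PolyTime.More
import Crest.Agent.R291.Hash

/-!
# The hard language: the input carries the seed of the function in its last two thirds
-/

namespace Crest.Agent.R291

open Finset Crest.Agent.Lib.PolyTime

/-- The number written on the positions from `m` to `3m`. -/
def seedT (y : List Bool) : ℕ :=
  ∑ i ∈ range (2 * (y.length / 3)), if y.getD (y.length / 3 + i) false = true then 2 ^ i else 0

/-- The modulus. -/
def seedP (y : List Bool) : ℕ := seedT y % 2 ^ (y.length / 3)

/-- The digits of the seed. -/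
def seedZ (y : List Bool) : ℕ := seedT y / 2 ^ (y.length / 3)

/-- The hash value. -/
def seedU (y : List Bool) : ℕ :=
  ∑ i ∈ range (y.length / 3), if y.getD i false = true then (seedZ y % seedP y) ^ i else 0

/-- The polynomial value. -/
def seedV (y : List Bool) : ℕ :=
  ∑ j ∈ range (y.length / 3), (seedZ y / seedP y / seedP y ^ j % seedP y) * seedU y ^ j

/-- The decision procedure. -/
def acc (y : List Bool) : Bool := decide (seedV y % seedP y % 2 = 1)

@[fun_prop] theorem poly_seedT : Poly seedT := by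
  unfold seedT
  fun_prop

@[fun_prop] theorem poly_seedP : Poly seedP := by
  unfold seedP
  fun_prop

@[fun_prop] theorem poly_seedZ : Poly seedZ := by
  unfold seedZ
  fun_prop

@[fun_prop] theorem poly_seedU : Poly seedU := by
  unfold seedU
  fun_prop

@[fun_prop] theorem poly_seedV : Poly seedV := by
  unfold seedV
  fun_prop

theorem poly_acc : Poly acc := by
  unfold acc
  fun_prop

theorem inP_acc : Crest.Complexity.InP {y | acc y = true} := poly_acc.inP fun _ => Iff.rfl

theorem sum_testBit (T n : ℕ) :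
    (∑ i ∈ range n, if T.testBit i = true then 2 ^ i else 0) = T % 2 ^ n := by
  induction n with
  | zero => simp [Nat.mod_one]
  | succ n ih =>
    rw [sum_range_succ, ih, Nat.mod_pow_succ, Nat.testBit_eq_decide_div_mod_eq]
    rcases Nat.mod_two_eq_zero_or_one (T / 2 ^ n) with h | h <;> simp [h]

/-- The input made of `x` followed by the bits of `T`. -/
def inp (N : ℕ) {m : ℕ} (T : ℕ) (x : Fin m → Bool) : Fin N → Bool :=
  fun i => if h : (i : ℕ) < m then x ⟨i, h⟩ else T.testBit (i - m)

theorem getD_inp {N m : ℕ} (T : ℕ) (x : Fin m → Bool) {i : ℕ} (hi : i < N) :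
    (List.ofFn (inp N T x)).getD i false = if h : i < m then x ⟨i, h⟩ else T.testBit (i - m) := by
  rw [List.getD_eq_getElem _ _ (by simpa using hi), List.getElem_ofFn]
  rfl

theorem exists_seedT {N P t : ℕ} [Fact P.Prime] (hP : P ^ (t + 1) < 2 ^ (N / 3)) (ht : t ≤ N / 3)
    (a : ZMod P) (c : Fin t → ZMod P) : ∃ T : ℕ, ∀ x : Fin (N / 3) → Bool,
      acc (List.ofFn (inp N T x)) = true ↔ chi a c x = -1 := by
  have hP0 : 0 < P := (Fact.out : P.Prime).pos
  have hP1 : P < 2 ^ (N / 3) := lt_of_le_of_lt (Nat.le_self_pow (by omega) _) hP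
  set Z' : Fin (P ^ t) := finFunctionFinEquiv fun j => (⟨(c j).val, ZMod.val_lt _⟩ : Fin P) with hZ'
  have hdig : ∀ j : Fin t, (Z' : ℕ) / P ^ (j : ℕ) % P = (c j).val := by
    intro j
    rw [← finFunctionFinEquiv_symm_apply_val, hZ', Equiv.symm_apply_apply]
  have hZ : a.val + P * Z' < 2 ^ (N / 3) := by
    have h1 := ZMod.val_lt a
    have h2 : P * (Z' + 1) ≤ P * P ^ t := Nat.mul_le_mul_left _ Z'.2
    rw [pow_succ'] at hP
    nlinarith
  refine ⟨P + 2 ^ (N / 3) * (a.val + P * Z'), fun x => ?_⟩
  set T := P + 2 ^ (N / 3) * (a.val + P * Z') with hT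
  have e1 : seedT (List.ofFn (inp N T x)) = T := by
    unfold seedT
    rw [List.length_ofFn, sum_congr rfl (g := fun i => if T.testBit i = true then 2 ^ i else 0),
      sum_testBit, Nat.mod_eq_of_lt]
    · rw [two_mul, pow_add]
      have : 2 ^ (N / 3) * (a.val + P * Z' + 1) ≤ 2 ^ (N / 3) * 2 ^ (N / 3) :=
        Nat.mul_le_mul_left _ hZ
      nlinarith
    · intro i hi
      rw [getD_inp _ _ (by have := mem_range.1 hi; omega), dif_neg (by omega),
        Nat.add_sub_cancel_left]
  have e2 : seedP (List.ofFn (inp N T x)) = P := by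
    unfold seedP
    rw [e1, List.length_ofFn, hT, Nat.add_mul_mod_self_left, Nat.mod_eq_of_lt hP1]
  have e3 : seedZ (List.ofFn (inp N T x)) = a.val + P * Z' := by
    unfold seedZ
    rw [e1, List.length_ofFn, hT, Nat.add_mul_div_left _ _ (by positivity), Nat.div_eq_of_lt hP1,
      zero_add]
  have e4 : (seedU (List.ofFn (inp N T x)) : ZMod P) = hashU a x := by
    unfold seedU hashU
    rw [e2, e3, List.length_ofFn, Nat.add_mul_mod_self_left, Nat.mod_eq_of_lt (ZMod.val_lt a),
      sum_range, Nat.cast_sum]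
    refine sum_congr rfl fun i _ => ?_
    rw [getD_inp _ _ (by have := i.2; omega), dif_pos i.2]
    split_ifs <;> simp
  have e5 : (seedV (List.ofFn (inp N T x)) : ZMod P) = ∑ j, c j * hashU a x ^ (j : ℕ) := by
    unfold seedV
    rw [e2, e3, List.length_ofFn, Nat.add_mul_div_left _ _ hP0, Nat.div_eq_of_lt (ZMod.val_lt a),
      zero_add, ← sum_subset (range_subset_range.2 ht), sum_range, Nat.cast_sum]
    · refine sum_congr rfl fun j _ => ?_
      rw [hdig, Nat.cast_mul, Nat.cast_pow, e4, ZMod.natCast_zmod_val]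
    · intro j _ hj
      rw [Nat.div_eq_of_lt, Nat.zero_mod, zero_mul]
      exact Z'.2.trans_le (Nat.pow_le_pow_right hP0 (by simpa using hj))
  unfold acc chi par
  rw [e2, ← e5, ZMod.val_natCast, decide_eq_true_iff, ← Nat.odd_iff,
    neg_one_pow_eq_neg_one_iff_odd (by norm_num)]

end Crest.Agent.R291
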