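import Mathlib

/-!
# Width reduction under a random restriction, by an inclusion-exclusion identity

The correlation of a function `χ` with a `k`-CNF is at most twice the expected best correlation
of the restricted function with a `w`-CNF, where `2⁻ʷ (1 + 2ρ)ᵏ ≤ 1/2`.
-/

namespace Crest.Agent.R291

open Finset

variable {ι : Type*} [Fintype ι] [DecidableEq ι]

/-- The subcube through `z` with free coordinates `U`. -/
def cube (U : Finset ι) (z : ι → Bool) : Finset (ι → Bool) :=
  univ.filter fun y => ∀ i, i ∉ U → y i = z i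

theorem mem_cube {U : Finset ι} {z y : ι → Bool} : y ∈ cube U z ↔ ∀ i, i ∉ U → y i = z i := by
  simp [cube]

theorem card_cube (U : Finset ι) (z : ι → Bool) : (cube U z).card = 2 ^ U.card := by
  have : cube U z = Fintype.piFinset fun i => if i ∈ U then univ else {z i} := by
    ext y
    rw [mem_cube, Fintype.mem_piFinset]
    refine forall_congr' fun i => ?_
    by_cases h : i ∈ U <;> simp [h]
  rw [this, Fintype.card_piFinset]
  have h2 : ∀ i, (if i ∈ U then (univ : Finset Bool) else {z i}).card = if i ∈ U then 2 else 1 := by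
    intro i
    split_ifs <;> simp
  simp only [h2]
  rw [prod_ite_mem, univ_inter, prod_const]

theorem cube_univ (z : ι → Bool) : cube univ z = univ := by
  ext y; simp [mem_cube]

theorem sum_cube_cube {U U' : Finset ι} (h : U' ⊆ U) (φ : (ι → Bool) → ℝ) (z : ι → Bool) :
    ∑ y ∈ cube U z, ∑ y' ∈ cube U' y, φ y' = 2 ^ U'.card * ∑ y' ∈ cube U z, φ y' := by
  rw [sum_comm' (t' := cube U z) (s' := fun y' => cube U' y')]
  · rw [mul_sum]
    refine sum_congr rfl fun y' _ => ?_
    rw [sum_const, card_cube, nsmul_eq_mul]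
    push_cast
    rfl
  · intro y y'
    simp only [mem_cube]
    constructor
    · rintro ⟨h1, h2⟩
      exact ⟨fun i hi => (h2 i hi).symm,
        fun i hi => (h2 i fun hh => hi (h hh)).trans (h1 i hi)⟩
    · rintro ⟨h1, h2⟩
      exact ⟨fun i hi => (h1 i fun hh => hi (h hh)).trans (h2 i hi),
        fun i hi => (h1 i hi).symm⟩

/-- Average over a subcube. -/
noncomputable def avg (U : Finset ι) (φ : (ι → Bool) → ℝ) (z : ι → Bool) : ℝ :=
  (∑ y ∈ cube U z, φ y) / 2 ^ U.card

theorem avg_avg {U U' : Finset ι} (h : U' ⊆ U) (φ : (ι → Bool) → ℝ) (z : ι → Bool) :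
    avg U (avg U' φ) z = avg U φ z := by
  unfold avg
  rw [← sum_div, sum_cube_cube h]
  field_simp

theorem sum_avg (U : Finset ι) (φ : (ι → Bool) → ℝ) : ∑ z, avg U φ z = ∑ z, φ z := by
  unfold avg
  have := sum_cube_cube (subset_univ U) φ (fun _ => false)
  rw [cube_univ] at this
  rw [← sum_div, this]
  field_simp

theorem avg_mono {U : Finset ι} {φ ψ : (ι → Bool) → ℝ} (h : ∀ y, φ y ≤ ψ y) (z : ι → Bool) :
    avg U φ z ≤ avg U ψ z :=
  div_le_div_of_nonneg_right (sum_le_sum fun y _ => h y) (by positivity)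

theorem abs_avg_le (U : Finset ι) (φ : (ι → Bool) → ℝ) (z : ι → Bool) :
    |avg U φ z| ≤ avg U (fun y => |φ y|) z := by
  unfold avg
  rw [abs_div, abs_of_pos (show (0 : ℝ) < 2 ^ U.card by positivity)]
  exact div_le_div_of_nonneg_right (abs_sum_le_sum_abs _ _) (by positivity)

theorem avg_mul {U : Finset ι} {G : (ι → Bool) → ℝ} (φ : (ι → Bool) → ℝ) {z : ι → Bool}
    (h : ∀ y ∈ cube U z, G y = G z) : avg U (fun y => G y * φ y) z = G z * avg U φ z := by
  unfold avg
  rw [sum_congr rfl (g := fun y => G z * φ y) (fun y hy => by simp only [h y hy]), ← mul_sum]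
  ring

theorem avg_sub_sum {κ : Type*} (U : Finset ι) (φ : (ι → Bool) → ℝ) (L : Finset κ)
    (ψ : κ → (ι → Bool) → ℝ) (z : ι → Bool) :
    avg U (fun y => φ y - ∑ g ∈ L, ψ g y) z = avg U φ z - ∑ g ∈ L, avg U (ψ g) z := by
  unfold avg
  rw [sum_sub_distrib, sum_comm, ← sum_div]
  ring

variable {κ : Type*} [LinearOrder κ]

/-- The variables of a clause. -/
def vars (lits : κ → Finset (ι × Bool)) (g : κ) : Finset ι := (lits g).image Prod.fst

/-- The clause `g` is true at `z`. -/
def Tr (lits : κ → Finset (ι × Bool)) (g : κ) (z : ι → Bool) : Prop :=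
  ∃ l ∈ lits g, z l.1 = l.2

open Classical in
/-- The indicator of the conjunction of the clauses in `S`. -/
noncomputable def ind (lits : κ → Finset (ι × Bool)) (S : Finset κ) (z : ι → Bool) : ℝ :=
  if ∀ g ∈ S, Tr lits g z then 1 else 0

open Classical in
/-- `g` is false, and no earlier clause of `F` without variables in `U` is false. -/
noncomputable def fst (lits : κ → Finset (ι × Bool)) (F : Finset κ) (g : κ) (U : Finset ι)
    (z : ι → Bool) : ℝ :=
  if ¬ Tr lits g z ∧ ∀ g' ∈ F, g' < g → Disjoint (vars lits g') U → Tr lits g' z then 1 else 0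

omit [LinearOrder κ] in
theorem tr_congr {lits : κ → Finset (ι × Bool)} {g : κ} {U : Finset ι} {y z : ι → Bool}
    (hd : Disjoint (vars lits g) U) (hy : y ∈ cube U z) : Tr lits g y ↔ Tr lits g z := by
  refine exists_congr fun l => and_congr_right fun hl => ?_
  rw [mem_cube.1 hy l.1 (disjoint_left.1 hd (mem_image_of_mem _ hl))]

theorem fst_congr {lits : κ → Finset (ι × Bool)} {F : Finset κ} {g : κ} {U : Finset ι}
    {y z : ι → Bool} (hd : Disjoint (vars lits g) U) (hy : y ∈ cube U z) :
    fst lits F g U y = fst lits F g U z := by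
  classical
  unfold fst
  refine if_congr (and_congr (not_congr (tr_congr hd hy)) ?_) rfl rfl
  exact forall₂_congr fun g' _ => forall_congr' fun _ => forall_congr' fun h => tr_congr h hy

omit [Fintype ι] in
theorem fst_nonneg (lits : κ → Finset (ι × Bool)) (F : Finset κ) (g : κ) (U : Finset ι)
    (z : ι → Bool) : 0 ≤ fst lits F g U z := by
  unfold fst
  split_ifs <;> norm_num

omit [Fintype ι] in
theorem sum_fst_le (lits : κ → Finset (ι × Bool)) (F : Finset κ) (U : Finset ι) (z : ι → Bool) :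
    ∑ g ∈ F with Disjoint (vars lits g) U, fst lits F g U z ≤ 1 := by
  classical
  unfold fst
  rw [← sum_filter, sum_const, nsmul_eq_mul, mul_one]
  have : ((F.filter fun g => Disjoint (vars lits g) U).filter fun g => ¬ Tr lits g z ∧
      ∀ g' ∈ F, g' < g → Disjoint (vars lits g') U → Tr lits g' z).card ≤ 1 := by
    rw [card_le_one]
    intro a ha b hb
    simp only [mem_filter] at ha hb
    rcases lt_trichotomy a b with h | h | h
    · exact absurd (hb.2.2 a ha.1.1 h ha.1.2) ha.2.1
    · exact h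
    · exact absurd (ha.2.2 b hb.1.1 h hb.1.2) hb.2.1
  exact_mod_cast this

/-- Subfamilies of `F` that contain all predecessors of their long members. -/
def Closed (lits : κ → Finset (ι × Bool)) (F : Finset κ) (w : ℕ) (U : Finset ι) (S : Finset κ) :
    Prop :=
  S ⊆ F ∧ ∀ g ∈ S, w < (vars lits g ∩ U).card → ∀ g' ∈ F, g' < g → g' ∈ S

omit [Fintype ι] in
theorem ind_expand {lits : κ → Finset (ι × Bool)} {F : Finset κ} {w : ℕ} {U : Finset ι}
    {S : Finset κ} (hS : Closed lits F w U S) (z : ι → Bool) :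
    ind lits S z = ind lits (S.filter fun g => (vars lits g ∩ U).card ≤ w) z -
      ∑ g ∈ S with w < (vars lits g ∩ U).card, fst lits F g (U \ vars lits g) z *
        ind lits ((S.filter fun g => (vars lits g ∩ U).card ≤ w) ∪ F.filter (· < g)) z := by
  classical
  by_cases h1 : ∀ g ∈ S, Tr lits g z
  · have e1 : ind lits S z = 1 := if_pos h1
    have e2 : ind lits (S.filter fun g => (vars lits g ∩ U).card ≤ w) z = 1 :=
      if_pos fun g hg => h1 g (mem_filter.1 hg).1
    rw [e1, e2, sum_eq_zero, sub_zero]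
    intro g hg
    have : fst lits F g (U \ vars lits g) z = 0 :=
      if_neg fun hh => hh.1 (h1 g (mem_filter.1 hg).1)
    rw [this, zero_mul]
  have e1 : ind lits S z = 0 := if_neg h1
  by_cases h2 : ∀ g ∈ S.filter fun g => (vars lits g ∩ U).card ≤ w, Tr lits g z
  · have e2 : ind lits (S.filter fun g => (vars lits g ∩ U).card ≤ w) z = 1 := if_pos h2
    push Not at h1
    obtain ⟨g0, hg0, hmin⟩ := exists_min_image (S.filter fun g => ¬ Tr lits g z) id
      (by obtain ⟨g, hg, hn⟩ := h1; exact ⟨g, mem_filter.2 ⟨hg, hn⟩⟩)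
    rw [mem_filter] at hg0
    have hlong : w < (vars lits g0 ∩ U).card := by
      by_contra hh
      exact hg0.2 (h2 g0 (mem_filter.2 ⟨hg0.1, by omega⟩))
    have hbefore : ∀ g' ∈ F, g' < g0 → Tr lits g' z := by
      intro g' hg' hlt
      by_contra hh
      exact absurd (hmin g' (mem_filter.2 ⟨hS.2 g0 hg0.1 hlong g' hg' hlt, hh⟩)) (not_le.2 hlt)
    rw [e1, e2, sum_eq_single g0]
    · have a1 : fst lits F g0 (U \ vars lits g0) z = 1 :=
        if_pos ⟨hg0.2, fun g' hg' hlt _ => hbefore g' hg' hlt⟩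
      have a2 : ind lits ((S.filter fun g => (vars lits g ∩ U).card ≤ w) ∪
          F.filter (· < g0)) z = 1 := by
        refine if_pos fun g hg => ?_
        rcases mem_union.1 hg with hg | hg
        · exact h2 g hg
        · exact hbefore g (mem_filter.1 hg).1 (mem_filter.1 hg).2
      rw [a1, a2]; norm_num
    · intro g hg hne
      rw [mem_filter] at hg
      rcases lt_or_gt_of_ne hne with hlt | hlt
      · have : fst lits F g (U \ vars lits g) z = 0 :=
          if_neg fun hh => hh.1 (hbefore g (hS.1 hg.1) hlt)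
        rw [this, zero_mul]
      · have : ind lits ((S.filter fun g => (vars lits g ∩ U).card ≤ w) ∪
            F.filter (· < g)) z = 0 :=
          if_neg fun hh => hg0.2 (hh g0 (mem_union_right _ (mem_filter.2 ⟨hS.1 hg0.1, hlt⟩)))
        rw [this, mul_zero]
    · intro hh
      exact absurd (mem_filter.2 ⟨hg0.1, hlong⟩) hh
  · have e2 : ind lits (S.filter fun g => (vars lits g ∩ U).card ≤ w) z = 0 := if_neg h2
    rw [e1, e2, sum_eq_zero, sub_zero]
    intro g _
    have : ind lits ((S.filter fun g => (vars lits g ∩ U).card ≤ w) ∪ F.filter (· < g)) z = 0 :=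
      if_neg fun hh => h2 fun g' hg' => hh g' (mem_union_left _ hg')
    rw [this, mul_zero]

omit [Fintype ι] in
theorem closed_step {lits : κ → Finset (ι × Bool)} {F : Finset κ} {w : ℕ} {U : Finset ι}
    {S : Finset κ} (hS : Closed lits F w U S) (g : κ) :
    Closed lits F w (U \ vars lits g)
      ((S.filter fun g => (vars lits g ∩ U).card ≤ w) ∪ F.filter (· < g)) := by
  refine ⟨union_subset ((filter_subset _ _).trans hS.1) (filter_subset _ _), ?_⟩
  intro g1 hg1 hl g' hg' hlt
  rcases mem_union.1 hg1 with h | h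
  · have h1 := (mem_filter.1 h).2
    have h2 : (vars lits g1 ∩ (U \ vars lits g)).card ≤ (vars lits g1 ∩ U).card :=
      card_le_card (inter_subset_inter_left sdiff_subset)
    omega
  · exact mem_union_right _ (mem_filter.2 ⟨hg', hlt.trans (mem_filter.1 h).2⟩)

omit [Fintype ι] [DecidableEq ι] in
theorem tail_le (V : Finset ι) (w k : ℕ) (hk : V.card ≤ k) (ρ : ℝ) (hρ : 0 ≤ ρ)
    (hκ : 2 * (1 + 2 * ρ) ^ k ≤ 2 ^ w) :
    (∑ J ∈ V.powerset, if w < J.card then ρ ^ J.card else 0) ≤ 1 / 2 := by
  have h1 : (∑ J ∈ V.powerset, (2 * ρ) ^ J.card * 1 ^ (V.card - J.card)) = (2 * ρ + 1) ^ V.card :=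
    sum_pow_mul_eq_add_pow _ _ _
  have h2 : (2 * ρ + 1) ^ V.card ≤ (1 + 2 * ρ) ^ k := by
    rw [add_comm]
    exact pow_le_pow_right₀ (by linarith) hk
  have h3 : (2 : ℝ) ^ w * (∑ J ∈ V.powerset, if w < J.card then ρ ^ J.card else 0) ≤
      ∑ J ∈ V.powerset, (2 * ρ) ^ J.card * 1 ^ (V.card - J.card) := by
    rw [mul_sum]
    refine sum_le_sum fun J _ => ?_
    split_ifs with h
    · rw [one_pow, mul_one, mul_pow]
      exact mul_le_mul_of_nonneg_right (pow_le_pow_right₀ (by norm_num) h.le) (by positivity)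
    · rw [mul_zero]; positivity
  have h4 : (0 : ℝ) < 2 ^ w := by positivity
  by_contra hh
  push Not at hh
  nlinarith

theorem sum_sdiff_le (V : Finset ι) (w k : ℕ) (hk : V.card ≤ k) (ρ : ℝ) (hρ : 0 ≤ ρ)
    (hκ : 2 * (1 + 2 * ρ) ^ k ≤ 2 ^ w) (f : Finset ι → ℝ) (hf : ∀ U, 0 ≤ f U) :
    (∑ U : Finset ι, if w < (V ∩ U).card then ρ ^ U.card * f (U \ V) else 0) ≤
      1 / 2 * ∑ U : Finset ι, if Disjoint V U then ρ ^ U.card * f U else 0 := by
  set Φ : Finset ι × Finset ι → ℝ := fun p =>
    (if Disjoint V p.1 then ρ ^ p.1.card * f p.1 else 0) *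
      (if w < p.2.card then ρ ^ p.2.card else 0) with hΦ
  have hΦ0 : ∀ p, 0 ≤ Φ p := by
    intro p
    have := hf p.1
    refine mul_nonneg ?_ ?_ <;> split_ifs <;> positivity
  have hinj : Set.InjOn (fun U : Finset ι => (U \ V, V ∩ U)) (univ : Finset (Finset ι)) := by
    intro U _ U' _ h
    simp only [Prod.mk.injEq] at h
    rw [← sdiff_union_inter U V, ← sdiff_union_inter U' V, h.1, inter_comm U, inter_comm U', h.2]
  calc (∑ U : Finset ι, if w < (V ∩ U).card then ρ ^ U.card * f (U \ V) else 0)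
      = ∑ U : Finset ι, Φ (U \ V, V ∩ U) := by
        refine sum_congr rfl fun U _ => ?_
        simp only [hΦ]
        rw [if_pos disjoint_sdiff]
        split_ifs
        · rw [← card_sdiff_add_card_inter U V, pow_add, inter_comm U]; ring
        · simp
    _ = ∑ p ∈ univ.image (fun U : Finset ι => (U \ V, V ∩ U)), Φ p := (sum_image hinj).symm
    _ ≤ ∑ p ∈ univ ×ˢ V.powerset, Φ p := by
        refine sum_le_sum_of_subset_of_nonneg ?_ fun p _ _ => hΦ0 p
        intro p hp
        obtain ⟨U, _, rfl⟩ := mem_image.1 hp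
        simp
    _ = ∑ U : Finset ι, (if Disjoint V U then ρ ^ U.card * f U else 0) *
          ∑ J ∈ V.powerset, if w < J.card then ρ ^ J.card else 0 := by
        rw [sum_product]
        refine sum_congr rfl fun U _ => ?_
        rw [mul_sum]
    _ ≤ ∑ U : Finset ι, (if Disjoint V U then ρ ^ U.card * f U else 0) * (1 / 2) := by
        refine sum_le_sum fun U _ => mul_le_mul_of_nonneg_left (tail_le V w k hk ρ hρ hκ) ?_
        have := hf U
        split_ifs <;> positivity
    _ = _ := by rw [← sum_mul, mul_comm]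

/-- **Width reduction.** -/
theorem width_reduction (lits : κ → Finset (ι × Bool)) (F : Finset κ) (w k : ℕ)
    (hk : ∀ g ∈ F, (vars lits g).card ≤ k) (ρ : ℝ) (hρ : 0 ≤ ρ)
    (hκ : 2 * (1 + 2 * ρ) ^ k ≤ 2 ^ w) (χ : (ι → Bool) → ℝ) (c : Finset ι → (ι → Bool) → ℝ)
    (hc : ∀ U z (S : Finset κ), (∀ g ∈ S, (vars lits g ∩ U).card ≤ w) →
      |avg U (fun y => ind lits S y * χ y) z| ≤ c U z) :
    (1 + ρ) ^ Fintype.card ι * |∑ z, ind lits F z * χ z| ≤
      2 * ∑ U : Finset ι, ρ ^ U.card * ∑ z, c U z := by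
  classical
  have hne : ∀ U, (F.powerset.filter fun S => Closed lits F w U S).Nonempty := fun U =>
    ⟨F, mem_filter.2 ⟨mem_powerset_self _, Subset.rfl, fun _ _ _ _ h _ => h⟩⟩
  set M : Finset ι → (ι → Bool) → ℝ := fun U z =>
    (F.powerset.filter fun S => Closed lits F w U S).sup' (hne U)
      fun S => |avg U (fun y => ind lits S y * χ y) z| with hM
  have hMle : ∀ U z S, Closed lits F w U S → |avg U (fun y => ind lits S y * χ y) z| ≤ M U z :=
    fun U z S hS => le_sup' (fun S => |avg U (fun y => ind lits S y * χ y) z|)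
      (mem_filter.2 ⟨mem_powerset.2 hS.1, hS⟩)
  have hFc : ∀ U, Closed lits F w U F := fun U => ⟨Subset.rfl, fun _ _ _ _ h _ => h⟩
  have hM0 : ∀ U z, 0 ≤ M U z := fun U z => (abs_nonneg _).trans (hMle U z F (hFc U))
  have hstep : ∀ U z, M U z ≤ c U z + ∑ g ∈ F with w < (vars lits g ∩ U).card,
      avg U (fun y => fst lits F g (U \ vars lits g) y * M (U \ vars lits g) y) z := by
    intro U z
    refine sup'_le _ _ fun S hS => ?_
    have hS := (mem_filter.1 hS).2
    have e1 : (fun y => ind lits S y * χ y) = fun y =>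
        ind lits (S.filter fun g => (vars lits g ∩ U).card ≤ w) y * χ y -
        ∑ g ∈ S with w < (vars lits g ∩ U).card, fst lits F g (U \ vars lits g) y *
          (ind lits ((S.filter fun g => (vars lits g ∩ U).card ≤ w) ∪ F.filter (· < g)) y
            * χ y) := by
      funext y
      rw [ind_expand hS y, sub_mul, sum_mul]
      simp only [mul_assoc]
    rw [e1, avg_sub_sum]
    refine (abs_sub _ _).trans (add_le_add (hc U z _ fun g hg => (mem_filter.1 hg).2) ?_)
    refine (abs_sum_le_sum_abs _ _).trans ?_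
    have hnn : ∀ g, 0 ≤
        avg U (fun y => fst lits F g (U \ vars lits g) y * M (U \ vars lits g) y) z := fun g =>
      div_nonneg (sum_nonneg fun y _ => mul_nonneg (fst_nonneg _ _ _ _ _) (hM0 _ _))
        (by positivity)
    refine le_trans (sum_le_sum fun g _ => ?_)
      (sum_le_sum_of_subset_of_nonneg (filter_subset_filter _ hS.1) fun g _ _ => hnn g)
    rw [← avg_avg (sdiff_subset (s := U) (t := vars lits g))]
    refine (abs_avg_le _ _ _).trans (avg_mono (fun y => ?_) z)
    rw [avg_mul _ (fun y' hy' => fst_congr disjoint_sdiff hy'), abs_mul,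
      abs_of_nonneg (fst_nonneg _ _ _ _ _)]
    exact mul_le_mul_of_nonneg_left (hMle _ _ _ (closed_step hS g)) (fst_nonneg _ _ _ _ _)
  set X := ∑ U : Finset ι, ρ ^ U.card * ∑ z, M U z with hX
  have h1 : X ≤ ∑ U : Finset ι, ρ ^ U.card * ∑ z, c U z + 1 / 2 * X := by
    have a1 : ∀ U : Finset ι, ρ ^ U.card * ∑ z, M U z ≤ ρ ^ U.card * ∑ z, c U z +
        ∑ g ∈ F, if w < (vars lits g ∩ U).card then ρ ^ U.card *
          ∑ y, fst lits F g (U \ vars lits g) y * M (U \ vars lits g) y else 0 := by
      intro U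
      rw [← sum_filter, ← mul_sum, ← mul_add]
      refine mul_le_mul_of_nonneg_left ?_ (by positivity)
      refine (sum_le_sum fun z _ => hstep U z).trans ?_
      rw [sum_add_distrib, sum_comm]
      simp only [sum_avg]
      exact le_rfl
    refine (sum_le_sum fun U _ => a1 U).trans ?_
    rw [sum_add_distrib, sum_comm]
    refine add_le_add le_rfl ?_
    refine (sum_le_sum fun g hg => sum_sdiff_le (vars lits g) w k (hk g hg) ρ hρ hκ
      (fun U => ∑ y, fst lits F g U y * M U y)
      (fun U => sum_nonneg fun y _ => mul_nonneg (fst_nonneg _ _ _ _ _) (hM0 _ _))).trans ?_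
    rw [← mul_sum, sum_comm]
    refine mul_le_mul_of_nonneg_left (sum_le_sum fun U _ => ?_) (by norm_num)
    rw [← sum_filter, ← mul_sum]
    refine mul_le_mul_of_nonneg_left ?_ (by positivity)
    rw [sum_comm]
    refine sum_le_sum fun y _ => ?_
    rw [← sum_mul]
    exact mul_le_of_le_one_left (hM0 _ _) (sum_fst_le _ _ _ _)
  have h2 : (1 + ρ) ^ Fintype.card ι * |∑ z, ind lits F z * χ z| ≤ X := by
    have a1 : (∑ U ∈ (univ : Finset ι).powerset, ρ ^ U.card * 1 ^ ((univ : Finset ι).card - U.card))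
        = (ρ + 1) ^ (univ : Finset ι).card := sum_pow_mul_eq_add_pow _ _ _
    simp only [one_pow, mul_one, powerset_univ, card_univ] at a1
    rw [add_comm, ← a1, sum_mul]
    refine sum_le_sum fun U _ => mul_le_mul_of_nonneg_left ?_ (by positivity)
    rw [← sum_avg U]
    exact (abs_sum_le_sum_abs _ _).trans (sum_le_sum fun z _ => hMle U z F (hFc U))
  linarith

end Crest.Agent.R291
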