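import Crest.Prelude.Def_Depth3
import Crest.Agent.R291.Width
import Crest.Agent.R291.Lang

/-!
# From small correlation with narrow formulas to large depth-three circuits
-/

namespace Crest.Agent.R291

open Finset Crest.Depth3

open Classical in
theorem card_violators {m k : ℕ} {κ : Type*} (lits : κ → Finset (Fin m × Bool)) (g : κ)
    (hg : k ≤ (vars lits g).card) :
    (∑ z : Fin m → Bool, if Tr lits g z then (0 : ℝ) else 1) ≤ 2 ^ m / 2 ^ k := by
  rw [sum_ite, sum_const_zero, zero_add, sum_const, nsmul_eq_mul, mul_one]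
  rcases (univ.filter fun z : Fin m → Bool => ¬ Tr lits g z).eq_empty_or_nonempty with h | ⟨z0, h⟩
  · rw [h, card_empty, Nat.cast_zero]
    positivity
  · have hsub : (univ.filter fun z : Fin m → Bool => ¬ Tr lits g z) ⊆ cube (vars lits g)ᶜ z0 := by
      intro z hz
      rw [mem_cube]
      intro i hi
      obtain ⟨l, hl, rfl⟩ := mem_image.1 (not_not.1 (mem_compl.not.1 hi))
      have h1 : z l.1 ≠ l.2 := fun hh => (mem_filter.1 hz).2 ⟨l, hl, hh⟩
      have h2 : z0 l.1 ≠ l.2 := fun hh => (mem_filter.1 h).2 ⟨l, hl, hh⟩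
      revert h1 h2
      cases z l.1 <;> cases z0 l.1 <;> cases l.2 <;> simp
    have h1 := card_le_card hsub
    rw [card_cube, card_compl, Fintype.card_fin] at h1
    have h2 : (vars lits g).card ≤ m := by simpa using card_le_univ (vars lits g)
    have h3 : 2 ^ (m - (vars lits g).card) * 2 ^ k ≤ 2 ^ m := by
      rw [← pow_add]
      exact Nat.pow_le_pow_right (by norm_num) (by omega)
    rw [le_div_iff₀ (by positivity)]
    exact_mod_cast (Nat.mul_le_mul_right _ h1).trans h3

theorem size_lower {N m k : ℕ} (T : ℕ) (c : Circuit N) (χ : (Fin m → Bool) → ℝ) (δ : ℝ)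
    (hχ : ∀ x, |χ x| = 1) (hc : ∀ x, c.eval (inp N T x) ↔ χ x = -1)
    (hδ : ∀ (nb : ℕ) (lits : Fin nb → Finset (Fin m × Bool)) (F : Finset (Fin nb)),
      (∀ g ∈ F, (vars lits g).card ≤ k) → |∑ z, ind lits F z * χ z| ≤ 2 ^ m * δ) :
    (1 - δ) / 2 ≤ c.mid * (δ + c.bot / 2 ^ k) := by
  classical
  set lits : Fin c.bot → Finset (Fin m × Bool) := fun g =>
    univ.filter fun l => ∃ l' ∈ c.lits g, (l'.1 : ℕ) = l.1 ∧ l'.2 = l.2 with hlits
  set cst : Fin c.bot → Prop := fun g =>
    c.one g = true ∨ ∃ l ∈ c.lits g, ¬ (l.1 : ℕ) < m ∧ T.testBit (l.1 - m) = l.2 with hcst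
  have key : ∀ g x, (c.one g = true ∨ ∃ l ∈ c.lits g, inp N T x l.1 = l.2) ↔
      (cst g ∨ Tr lits g x) := by
    intro g x
    constructor
    · rintro (h | ⟨l, hl, h⟩)
      · exact Or.inl (Or.inl h)
      · unfold inp at h
        by_cases hm : (l.1 : ℕ) < m
        · rw [dif_pos hm] at h
          exact Or.inr ⟨(⟨l.1, hm⟩, l.2), mem_filter.2 ⟨mem_univ _, l, hl, rfl, rfl⟩, h⟩
        · rw [dif_neg hm] at h
          exact Or.inl (Or.inr ⟨l, hl, hm, h⟩)
    · rintro ((h | ⟨l, hl, hm, h⟩) | ⟨l, hl, h⟩)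
      · exact Or.inl h
      · exact Or.inr ⟨l, hl, by unfold inp; rw [dif_neg hm, h]⟩
      · obtain ⟨l', hl', h1, h2⟩ := (mem_filter.1 hl).2
        refine Or.inr ⟨l', hl', ?_⟩
        unfold inp
        rw [dif_pos (h1 ▸ l.1.2), h2, ← h]
        congr 1
        exact Fin.ext h1
  set Fall : Fin c.mid → Finset (Fin c.bot) := fun j => (c.reads j).filter fun g => ¬ cst g
    with hFall
  have hev : ∀ x, χ x = -1 ↔ ∃ j, ∀ g ∈ Fall j, Tr lits g x := by
    intro x
    rw [← hc]
    refine exists_congr fun j => ⟨fun h g hg => ?_, fun h g hg => (key g x).2 ?_⟩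
    · exact ((key g x).1 (h g (mem_filter.1 hg).1)).resolve_left (mem_filter.1 hg).2
    · by_cases hg' : cst g
      · exact Or.inl hg'
      · exact Or.inr (h g (mem_filter.2 ⟨hg, hg'⟩))
  have hind0 : ∀ S z, 0 ≤ ind lits S z := by
    intro S z
    unfold ind
    split_ifs <;> norm_num
  have h1 : ∀ z, (1 - χ z) / 2 ≤ ∑ j, ind lits (Fall j) z := by
    intro z
    rcases (abs_eq (by norm_num)).1 (hχ z) with h | h
    · rw [h, sub_self, zero_div]
      exact sum_nonneg fun j _ => hind0 _ _
    · obtain ⟨j, hj⟩ := (hev z).1 h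
      refine le_trans (le_of_eq ?_) (single_le_sum (f := fun j => ind lits (Fall j) z)
        (fun j _ => hind0 _ _) (mem_univ j))
      rw [h]
      unfold ind
      rw [if_pos hj]
      norm_num
  have h2 : ∀ j z, ind lits (Fall j) z ≤
      -(ind lits ((Fall j).filter fun g => (vars lits g).card ≤ k) z * χ z) +
        ∑ g ∈ univ.filter fun g => k ≤ (vars lits g).card, if Tr lits g z then (0 : ℝ) else 1 := by
    intro j z
    have h0 : ∀ g ∈ univ.filter fun g => k ≤ (vars lits g).card,
        0 ≤ if Tr lits g z then (0 : ℝ) else 1 := fun g _ => by split_ifs <;> norm_num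
    have h0' := sum_nonneg h0
    unfold ind
    by_cases hA : ∀ g ∈ Fall j, Tr lits g z
    · rw [if_pos hA, if_pos fun g hg => hA g (mem_filter.1 hg).1, (hev z).2 ⟨j, hA⟩]
      linarith
    · rw [if_neg hA]
      split_ifs with hB
      · push Not at hA
        obtain ⟨g, hg, hgz⟩ := hA
        have hk : k ≤ (vars lits g).card := by
          by_contra hk
          exact hgz (hB g (mem_filter.2 ⟨hg, by omega⟩))
        have h3 := single_le_sum h0 (mem_filter.2 ⟨mem_univ g, hk⟩)
        rw [if_neg hgz] at h3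
        have h4 := (le_abs_self (χ z)).trans (hχ z).le
        linarith
      · linarith
  have h3 : ∀ j, ∑ z, ind lits (Fall j) z ≤ 2 ^ m * (δ + c.bot / 2 ^ k) := by
    intro j
    refine (sum_le_sum fun z _ => h2 j z).trans ?_
    rw [sum_add_distrib, sum_neg_distrib, sum_comm]
    have a1 := (neg_le_abs _).trans (hδ _ lits ((Fall j).filter fun g => (vars lits g).card ≤ k)
      fun g hg => (mem_filter.1 hg).2)
    have a2 := sum_le_card_nsmul (univ.filter fun g => k ≤ (vars lits g).card) _ _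
      fun g hg => card_violators lits g (mem_filter.1 hg).2
    have a3 : ((univ.filter fun g => k ≤ (vars lits g).card).card : ℝ) ≤ c.bot := by
      exact_mod_cast (card_le_univ _).trans (Fintype.card_fin _).le
    rw [nsmul_eq_mul] at a2
    have a4 := mul_le_mul_of_nonneg_right a3 (show (0 : ℝ) ≤ 2 ^ m / 2 ^ k by positivity)
    calc _ ≤ 2 ^ m * δ + c.bot * (2 ^ m / 2 ^ k) := add_le_add a1 (a2.trans a4)
      _ = _ := by ring
  have h4 := (le_abs_self _).trans (hδ _ lits ∅ (by simp))
  have h5 : ∀ z, ind lits ∅ z = 1 := fun z => by simp [ind]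
  simp only [h5, one_mul] at h4
  have h6 := sum_le_sum fun z (_ : z ∈ univ) => h1 z
  rw [sum_comm, ← sum_div, sum_sub_distrib] at h6
  have h7 := sum_le_card_nsmul univ _ _ fun j _ => h3 j
  simp only [sum_const, card_univ, Fintype.card_pi, Fintype.card_bool, prod_const,
    Fintype.card_fin, nsmul_eq_mul] at h6 h7
  push_cast at h6
  have hpos : (0 : ℝ) < 2 ^ m := by positivity
  refine le_of_mul_le_mul_left ?_ hpos
  nlinarith

end Crest.Agent.R291
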