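import Crest.Agent.R291.Seed
import Crest.Agent.R291.Circ

/-!
# The choice of parameters
-/

namespace Crest.Agent.R291

open Finset Crest.Depth3

theorem log_sq_lt (C : ℕ) : ∃ R : ℕ, ∀ r ≥ R, C * (Nat.log 2 r + 1) ^ 2 < r := by
  have h := tendsto_pow_const_div_const_pow_of_one_lt 2 (r := 2) (by norm_num)
  have h2 := h.eventually (gt_mem_nhds (show (0 : ℝ) < 1 / (2 * C + 1) by positivity))
  obtain ⟨L, hL⟩ := Filter.eventually_atTop.1 h2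
  refine ⟨2 ^ L, fun r hr => ?_⟩
  have hr0 : r ≠ 0 := by
    have : 0 < 2 ^ L := by positivity
    omega
  have h3 : L ≤ Nat.log 2 r := (Nat.le_log_iff_pow_le (by norm_num) hr0).2 hr
  have h4 := hL (Nat.log 2 r + 1) (by omega)
  rw [div_lt_div_iff₀ (by positivity) (by positivity), one_mul] at h4
  have h5 : (Nat.log 2 r + 1) ^ 2 * (2 * C + 1) < 2 ^ (Nat.log 2 r + 1) := by exact_mod_cast h4
  have h6 := Nat.pow_log_le_self 2 hr0
  rw [pow_succ 2] at h5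
  nlinarith [Nat.zero_le ((Nat.log 2 r + 1) ^ 2)]

theorem exists_params (g w K : ℕ) (hw : 1 ≤ w) : ∃ R : ℕ, ∀ r ≥ R, ∀ m : ℕ, m < r ^ 2 →
    (r - 1) ^ 2 ≤ 3 * m + 2 → g ≤ r ∧ r ^ 2 ≤ 4 * m ∧ ∃ b h P : ℕ, P.Prime ∧
      (2 * m + 1) ^ (2 * w) + 1 ≤ 2 ^ b ∧ h = 6 * (2 * K * b + 3) ∧
      4 ^ (g * r * h) * (2 * h * m + 1) ≤ P ∧ P ^ (2 * h + 1) < 2 ^ m ∧ 2 * h ≤ m ∧
      16 * (2 * h + 2 ^ (b + 1) + 1) ≤ 2 ^ r := by
  obtain ⟨D, hD⟩ : ∃ D, D = 72 * K * w + 18 := ⟨_, rfl⟩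
  obtain ⟨C1, hC1⟩ : ∃ C1, C1 = (2 * g * D + D + 4) * (2 * D + 1) := ⟨_, rfl⟩
  obtain ⟨R, hR⟩ := log_sq_lt (4 * C1 + (2 * D + 6 * w + 6) + g + 9)
  refine ⟨R, fun r hr m hm1 hm2 => ?_⟩
  have h0 := hR r hr
  have hl2 : r < 2 ^ (Nat.log 2 r + 1) := Nat.lt_pow_succ_log_self (by norm_num) r
  obtain ⟨l, hl⟩ : ∃ l, l = Nat.log 2 r + 1 := ⟨_, rfl⟩
  have hl1 : 1 ≤ l := by omega
  rw [← hl] at h0 hl2
  clear hl hR hr
  have hll : l ≤ l ^ 2 := Nat.le_self_pow (by norm_num) _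
  have a1 : 4 * C1 * l ^ 2 < r := by nlinarith
  have a2 : (2 * D + 6 * w + 6) * l ≤ r := by nlinarith
  have a3 : g ≤ r := by nlinarith
  have a4 : 9 ≤ r := by nlinarith
  have a5 : r ^ 2 ≤ 4 * m := by
    obtain ⟨s, rfl⟩ : ∃ s, r = s + 1 := ⟨r - 1, by omega⟩
    rw [Nat.add_sub_cancel] at hm2
    nlinarith
  refine ⟨a3, a5, ?_⟩
  have a6 : 2 * m + 1 < 2 ^ (2 * l + 1) := by
    have : r ^ 2 ≤ (2 ^ l) ^ 2 := Nat.pow_le_pow_left hl2.le 2
    rw [pow_succ, mul_comm 2 l, pow_mul]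
    omega
  obtain ⟨b, hb⟩ : ∃ b, b = (2 * l + 1) * (2 * w) := ⟨_, rfl⟩
  obtain ⟨h, hh⟩ : ∃ h, h = 6 * (2 * K * b + 3) := ⟨_, rfl⟩
  have b1 : b ≤ 6 * w * l := by nlinarith
  have b2 : h ≤ D * l := by
    have := Nat.mul_le_mul_left (12 * K) b1
    nlinarith
  have b3 : 1 ≤ h := by omega
  obtain ⟨P, hP, hP1, hP2⟩ := Nat.exists_prime_lt_and_le_two_mul
    (4 ^ (g * r * h) * (2 * h * m + 1)) (by positivity)
  have b4 : P ≤ 2 ^ (2 * (g * r * h) + h + (2 * l + 1) + 1) := by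
    have c1 : h ≤ 2 ^ h := Nat.lt_two_pow_self.le
    have c2 : 2 * h * m + 1 ≤ 2 ^ h * 2 ^ (2 * l + 1) :=
      le_trans (by nlinarith) (Nat.mul_le_mul c1 a6.le)
    rw [pow_succ, add_assoc, pow_add, pow_add, pow_mul]
    have c3 := Nat.mul_le_mul_left (4 ^ (g * r * h)) c2
    norm_num
    omega
  have b5 : (2 * (g * r * h) + h + (2 * l + 1) + 1) * (2 * h + 1) < m := by
    have c1 : 2 * (g * r * h) + h + (2 * l + 1) + 1 ≤ (2 * g * D + D + 4) * (r * l) := by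
      have d1 := Nat.mul_le_mul_left (g * r) b2
      have d2 : l ≤ r * l := Nat.le_mul_of_pos_left _ (by omega)
      have d3 := Nat.mul_le_mul_left D d2
      nlinarith
    have c2 : 2 * h + 1 ≤ (2 * D + 1) * l := by nlinarith
    have c3 := Nat.mul_le_mul c1 c2
    have c4 : (2 * g * D + D + 4) * (r * l) * ((2 * D + 1) * l) = r * (C1 * l ^ 2) := by
      rw [hC1]; ring
    have c5 : r * (4 * C1 * l ^ 2) < r * r := Nat.mul_lt_mul_of_pos_left a1 (by omega)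
    nlinarith
  refine ⟨b, h, P, hP, ?_, hh, hP1.le, ?_, by nlinarith, ?_⟩
  · rw [hb, pow_mul 2 (2 * l + 1)]
    exact Nat.pow_lt_pow_left a6 (by omega)
  · refine (Nat.pow_le_pow_left b4 _).trans_lt ?_
    rw [← pow_mul]
    exact Nat.pow_lt_pow_right (by norm_num) b5
  · have c0 : 2 * h + 1 ≤ 2 ^ (2 * h) := Nat.succ_le_of_lt Nat.lt_two_pow_self
    have c1 : 2 * h + 1 ≤ 2 ^ (2 * h + b + 1) :=
      c0.trans (Nat.pow_le_pow_right (by norm_num) (by omega))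
    have c2 : 2 ^ (b + 1) ≤ 2 ^ (2 * h + b + 1) := Nat.pow_le_pow_right (by norm_num) (by omega)
    have c4 : (2 * D + 6 * w + 6) * l = 2 * (D * l) + 6 * w * l + 6 * l := by ring
    have c3 : 2 ^ (2 * h + b + 1 + 5) ≤ 2 ^ r := Nat.pow_le_pow_right (by norm_num) (by omega)
    rw [pow_add] at c3
    omega

theorem lower_bound (A : ℕ) (hA : 1 ≤ A) : ∃ N0 : ℕ, ∀ N ≥ N0, ∀ c : Circuit N,
    (∀ x : Fin N → Bool, c.eval x ↔ acc (List.ofFn x) = true) →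
      2 ^ (A * (Nat.sqrt N + 1)) < c.size := by
  obtain ⟨g, hg⟩ : ∃ g, g = 480 * A ^ 2 := ⟨_, rfl⟩
  obtain ⟨K, hK⟩ := exists_seed (4 * g + 1)
  obtain ⟨R, hR⟩ := exists_params g (4 * g + 1) K (by omega)
  refine ⟨R ^ 2, fun N hN c hc => ?_⟩
  have h1 : R ≤ Nat.sqrt N := Nat.le_sqrt'.2 hN
  have h2 : N < (Nat.sqrt N + 1) ^ 2 := Nat.lt_succ_sqrt' N
  have h3 : Nat.sqrt N ^ 2 ≤ N := Nat.sqrt_le' N
  obtain ⟨a1, a2, b, h, P, hP, a3, a4, a5, a6, a7, a8⟩ := hR (Nat.sqrt N + 1) (by omega) (N / 3)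
    (by omega) (by rw [Nat.add_sub_cancel]; omega)
  have h4 : N / 3 ≤ (Nat.sqrt N + 1) ^ 2 := by omega
  have hr1 : 1 ≤ Nat.sqrt N + 1 := by omega
  generalize Nat.sqrt N + 1 = r at *
  have : Fact P.Prime := ⟨hP⟩
  have hAr : r ≤ A * r := Nat.le_mul_of_pos_left _ hA
  obtain ⟨k, hk⟩ : ∃ k, k = 2 * (A * r) + 3 := ⟨_, rfl⟩
  have hk0 : (0 : ℝ) < k := by rw [hk]; positivity
  have hgk : (g : ℝ) ≤ k := by exact_mod_cast (by omega : g ≤ k)
  have b1 : 2 * (1 + 2 * ((g : ℝ) / k)) ^ k ≤ 2 ^ (4 * g + 1) := by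
    have c1 : (1 + 2 * ((g : ℝ) / k)) ^ k ≤ Real.exp (2 * ((g : ℝ) / k)) ^ k :=
      pow_le_pow_left₀ (by positivity) (by rw [add_comm]; exact Real.add_one_le_exp _) _
    have c2 : Real.exp (2 * ((g : ℝ) / k)) ^ k = Real.exp 1 ^ (2 * g) := by
      rw [← Real.exp_nat_mul, ← Real.exp_nat_mul]
      congr 1
      push_cast
      field_simp
    have c3 : Real.exp 1 ^ (2 * g) ≤ (2 ^ 2) ^ (2 * g) :=
      pow_le_pow_left₀ (by positivity) (by have := Real.exp_one_lt_d9; linarith) _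
    rw [← pow_mul, show 2 * (2 * g) = 4 * g by ring] at c3
    rw [pow_succ]
    linarith
  have b2 : 2 * ((g : ℝ) / k) * (N / 3 : ℕ) ≤ (g * r : ℕ) := by
    have c1 : 2 * g * (N / 3) ≤ g * r * k := by
      have d1 := Nat.mul_le_mul_left (2 * g) h4
      have d2 : g * r * (2 * r) ≤ g * r * k := Nat.mul_le_mul_left _ (by omega)
      nlinarith
    rw [← mul_div_assoc, div_mul_eq_mul_div, div_le_iff₀ hk0]
    exact_mod_cast c1
  obtain ⟨a, cc, hac⟩ := hK (N / 3) k (g * r) b h P ((g : ℝ) / k) (by positivity)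
    ((div_le_one hk0).2 hgk) b1 b2 a3 a4 a5
  obtain ⟨T, hT⟩ := exists_seedT a6 a7 a cc
  have b3 := size_lower T c (chi a cc) _ (abs_chi a cc) (fun x => (hc _).trans (hT x)) hac
  have b4 : 2 * (2 * (h : ℝ) + 2 ^ (b + 1) + 1) * Real.exp (-((g : ℝ) / k * (N / 3 : ℕ) / 12)) ≤
      1 / (8 * 2 ^ (A * r)) := by
    have c1 : (2 * (A * r) : ℕ) ≤ (g : ℝ) / k * (N / 3 : ℕ) / 12 := by
      have d1 : 2 * (A * r) * 12 * k ≤ g * (N / 3) := by
        have e1 : k ≤ 5 * (A * r) := by omega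
        have e2 := Nat.mul_le_mul_left (2 * (A * r) * 12) e1
        have e3 := Nat.mul_le_mul_left (120 * A ^ 2) a2
        rw [hg]
        nlinarith
      rw [le_div_iff₀ (by norm_num), div_mul_eq_mul_div, le_div_iff₀ hk0]
      exact_mod_cast d1
    have c2 : (2 : ℝ) ^ (2 * (A * r)) ≤ Real.exp ((g : ℝ) / k * (N / 3 : ℕ) / 12) := by
      refine le_trans ?_ (Real.exp_le_exp.2 c1)
      rw [← mul_one ((2 * (A * r) : ℕ) : ℝ), Real.exp_nat_mul]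
      exact pow_le_pow_left₀ (by norm_num) (by have := Real.add_one_le_exp 1; linarith) _
    have c3 : 16 * (2 * (h : ℝ) + 2 ^ (b + 1) + 1) ≤ 2 ^ (A * r) := by
      exact_mod_cast a8.trans (Nat.pow_le_pow_right (by norm_num) hAr)
    rw [Real.exp_neg, ← div_eq_mul_inv, div_le_div_iff₀ (by positivity) (by positivity), one_mul]
    refine le_trans ?_ c2
    rw [two_mul (A * r), pow_add 2 (A * r)]
    have c4 : (0 : ℝ) < 2 ^ (A * r) := by positivity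
    nlinarith
  by_contra hs
  unfold Circuit.size at hs
  have b5 : (c.mid : ℝ) ≤ 2 ^ (A * r) := by exact_mod_cast (by omega : c.mid ≤ 2 ^ (A * r))
  have b6 : (c.bot : ℝ) ≤ 2 ^ (A * r) := by exact_mod_cast (by omega : c.bot ≤ 2 ^ (A * r))
  have b7 : (2 : ℝ) ^ k = 8 * 2 ^ (A * r) * 2 ^ (A * r) := by rw [hk]; ring
  have b8 : (1 : ℝ) ≤ 2 ^ (A * r) := one_le_pow₀ (by norm_num)
  rw [b7] at b3
  generalize (2 : ℝ) ^ (A * r) = S at *
  generalize 2 * (2 * (h : ℝ) + 2 ^ (b + 1) + 1) *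
    Real.exp (-((g : ℝ) / k * (N / 3 : ℕ) / 12)) = δ at *
  have b9 : (c.bot : ℝ) / (8 * S * S) ≤ 1 / (8 * S) := by
    rw [div_le_div_iff₀ (by positivity) (by positivity)]
    nlinarith
  have b10 : 1 / (8 * S) ≤ 1 / 8 := by
    rw [div_le_div_iff₀ (by positivity) (by positivity)]
    linarith
  have b11 : (c.mid : ℝ) * (δ + c.bot / (8 * S * S)) ≤ c.mid * (1 / (8 * S) + 1 / (8 * S)) :=
    mul_le_mul_of_nonneg_left (by linarith) (by positivity)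
  have b12 : (c.mid : ℝ) * (1 / (8 * S) + 1 / (8 * S)) ≤ S * (1 / (8 * S) + 1 / (8 * S)) :=
    mul_le_mul_of_nonneg_right b5 (by positivity)
  have b13 : S * (1 / (8 * S) + 1 / (8 * S)) = 1 / 4 := by
    field_simp
    norm_num
  linarith

end Crest.Agent.R291
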