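import Crest.Agent.R291.Sparsify
import Crest.Agent.R291.Width
import Crest.Agent.R291.Hash

/-!
# A seed whose function has tiny correlation with every `k`-CNF
-/

namespace Crest.Agent.R291

open Finset

variable {m : ℕ}

/-- The literals true at `y`. -/
def tl (y : Fin m → Bool) : Finset (Fin m × Bool) := univ.image fun i => (i, y i)

theorem mem_tl {y : Fin m → Bool} {l : Fin m × Bool} : l ∈ tl y ↔ y l.1 = l.2 := by
  unfold tl
  rw [mem_image]
  constructor
  · rintro ⟨i, _, rfl⟩; rfl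
  · intro h; exact ⟨l.1, mem_univ _, by rw [h]⟩

/-- The literals on the variables of `U`. -/
def lam (U : Finset (Fin m)) : Finset (Fin m × Bool) := U ×ˢ univ

theorem card_lam (U : Finset (Fin m)) : (lam U).card = 2 * U.card := by
  simp [lam, mul_comm]

/-- The sparse formulas. -/
def fam (W K : ℕ) (U : Finset (Fin m)) :
    Finset (Finset (Finset (Fin m × Bool)) × Finset (Fin m × Bool)) :=
  (((lam U).powerset.filter fun C => C.card ≤ W).powerset.filter
    fun S => S.card ≤ K * (lam U).card + 1) ×ˢ (lam U).powerset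

theorem card_fam (W K b : ℕ) (hb : (2 * m + 1) ^ W + 1 ≤ 2 ^ b) (U : Finset (Fin m)) :
    (fam W K U).card ≤ 2 ^ b * 2 ^ (U.card * (2 * K * b + 2)) := by
  unfold fam
  rw [card_product, card_powerset]
  have h1 := card_small_subsets (lam U) W
  have h2 := card_small_subsets ((lam U).powerset.filter fun C => C.card ≤ W)
    (K * (lam U).card + 1)
  have h3 : U.card ≤ m := by simpa using card_le_univ U
  have h4 : ((lam U).card + 1) ^ W ≤ (2 * m + 1) ^ W :=
    Nat.pow_le_pow_left (by rw [card_lam]; omega) _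
  have h5 : (((lam U).powerset.filter fun C => C.card ≤ W).card + 1) ^ (K * (lam U).card + 1) ≤
      (2 ^ b) ^ (K * (lam U).card + 1) := Nat.pow_le_pow_left (by omega) _
  refine (Nat.mul_le_mul_right _ (h2.trans h5)).trans (le_of_eq ?_)
  rw [card_lam, ← pow_mul, ← pow_add, ← pow_add]
  congr 1
  ring

theorem avg_eq_corr {κ : Type*} (lits : κ → Finset (Fin m × Bool)) (w : ℕ) (U : Finset (Fin m))
    (z : Fin m → Bool) (S : Finset κ) (hS : ∀ g ∈ S, (vars lits g ∩ U).card ≤ w)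
    (χ : (Fin m → Bool) → ℝ) :
    ∃ S' : Finset (Finset (Fin m × Bool)), (∀ C ∈ S', C ⊆ lam U) ∧ (∀ C ∈ S', C.card ≤ 2 * w) ∧
      avg U (fun y => ind lits S y * χ y) z =
        corr (cube U z) tl (fun y => χ y / 2 ^ U.card) S' ∅ := by
  classical
  refine ⟨(S.filter fun g => ¬ ∃ l ∈ lits g, l.1 ∉ U ∧ z l.1 = l.2).image
    fun g => (lits g).filter fun l => l.1 ∈ U, ?_, ?_, ?_⟩
  · intro C hC
    obtain ⟨g, _, rfl⟩ := mem_image.1 hC
    intro l hl
    simpa [lam] using (mem_filter.1 hl).2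
  · intro C hC
    obtain ⟨g, hg, rfl⟩ := mem_image.1 hC
    have h1 : ((lits g).filter fun l => l.1 ∈ U) ⊆ lam (vars lits g ∩ U) := by
      intro l hl
      rw [mem_filter] at hl
      simp only [lam, mem_product, mem_inter, mem_univ, and_true]
      exact ⟨mem_image_of_mem _ hl.1, hl.2⟩
    have h2 := card_le_card h1
    have h3 := hS g (mem_filter.1 hg).1
    rw [card_lam] at h2
    omega
  · unfold avg corr
    rw [sum_div]
    refine sum_congr rfl fun y hy => ?_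
    have key : (∀ g ∈ S, Tr lits g y) ↔ Hits ((S.filter fun g =>
        ¬ ∃ l ∈ lits g, l.1 ∉ U ∧ z l.1 = l.2).image fun g => (lits g).filter fun l => l.1 ∈ U)
        (tl y) := by
      constructor
      · intro h C hC
        obtain ⟨g, hg, rfl⟩ := mem_image.1 hC
        rw [mem_filter] at hg
        obtain ⟨l, hl, hyl⟩ := h g hg.1
        rw [not_disjoint_iff]
        refine ⟨l, mem_filter.2 ⟨hl, ?_⟩, mem_tl.2 hyl⟩
        by_contra hU
        exact hg.2 ⟨l, hl, hU, (mem_cube.1 hy _ hU).symm.trans hyl⟩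
      · intro h g hg
        by_cases he : ∃ l ∈ lits g, l.1 ∉ U ∧ z l.1 = l.2
        · obtain ⟨l, hl, hU, hz⟩ := he
          exact ⟨l, hl, (mem_cube.1 hy _ hU).trans hz⟩
        · have := h _ (mem_image_of_mem _ (mem_filter.2 ⟨hg, he⟩))
          obtain ⟨l, hl, hl2⟩ := not_disjoint_iff.1 this
          exact ⟨l, (mem_filter.1 hl).1, mem_tl.1 hl2⟩
    unfold ind
    by_cases h : ∀ g ∈ S, Tr lits g y
    · rw [if_pos h, if_pos ⟨key.1 h, disjoint_empty_left _⟩, one_mul]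
    · rw [if_neg h, if_neg fun hh => h (key.2 hh.1), zero_mul, zero_div]

variable {P : ℕ} [Fact P.Prime]

theorem abs_corr_le {t : ℕ} (a : ZMod P) (c : Fin t → ZMod P) (U : Finset (Fin m))
    (z : Fin m → Bool) (S : Finset (Finset (Fin m × Bool))) (R : Finset (Fin m × Bool)) :
    |corr (cube U z) tl (fun y => chi a c y / 2 ^ U.card) S R| ≤ 1 := by
  unfold corr
  refine (abs_sum_le_sum_abs _ _).trans ?_
  refine (sum_le_card_nsmul _ _ (1 / 2 ^ U.card) fun y _ => ?_).trans ?_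
  · split_ifs
    · rw [abs_div, abs_chi, abs_of_pos (by positivity)]
    · simp
  · rw [card_cube, nsmul_eq_mul]
    push_cast
    rw [mul_one_div_cancel (by positivity)]

theorem corr_moment (h : ℕ) (β : ℝ) (hβ : 2 * h * m + 1 ≤ β * P) (U : Finset (Fin m))
    (z : Fin m → Bool) (S : Finset (Finset (Fin m × Bool))) (R : Finset (Fin m × Bool)) :
    ∑ a : ZMod P, ∑ c : Fin (2 * h) → ZMod P,
      corr (cube U z) tl (fun y => chi a c y / 2 ^ U.card) S R ^ (2 * h) ≤
      P ^ (2 * h + 1) * ((2 * h ^ 2 / 2 ^ U.card) ^ h + β) := by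
  classical
  set Z := (cube U z).filter fun y => Hits S (tl y) ∧ Disjoint R (tl y) with hZ
  have e1 : ∀ (a : ZMod P) (c : Fin (2 * h) → ZMod P),
      corr (cube U z) tl (fun y => chi a c y / 2 ^ U.card) S R =
        (∑ y ∈ Z, chi a c y) / 2 ^ U.card := by
    intro a c
    unfold corr
    rw [hZ, sum_filter, sum_div]
    refine sum_congr rfl fun y _ => ?_
    split_ifs <;> simp
  simp only [e1, div_pow, ← sum_div]
  have hq : (0 : ℝ) < 2 ^ U.card := by positivity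
  have hq1 : (1 : ℝ) ≤ 2 ^ U.card := one_le_pow₀ (by norm_num)
  have hZc : (Z.card : ℝ) ≤ 2 ^ U.card := by
    have := card_le_card (filter_subset (fun y => Hits S (tl y) ∧ Disjoint R (tl y)) (cube U z))
    rw [card_cube] at this
    exact_mod_cast this
  rw [div_le_iff₀ (by positivity)]
  refine (moment_le h Z).trans ?_
  generalize (2 : ℝ) ^ U.card = q at *
  have h1 : ((Z.card : ℝ) + 1) ^ h ≤ (2 * q) ^ h := pow_le_pow_left₀ (by positivity) (by linarith) _
  have h2 : (Z.card : ℝ) ^ (2 * h) ≤ q ^ (2 * h) := pow_le_pow_left₀ (by positivity) hZc _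
  have h3 : (P : ℝ) ^ (2 * h + 1) * ((2 * h ^ 2) ^ h / q ^ h + β) * q ^ (2 * h) =
      (2 * q) ^ h * h ^ (2 * h) * P ^ (2 * h + 1) + q ^ (2 * h) * ((β * P) * P ^ (2 * h)) := by
    have : q ^ (2 * h) = q ^ h * q ^ h := by ring
    rw [this, mul_pow, mul_pow, ← pow_mul]
    field_simp
    ring
  rw [h3]
  gcongr

theorem abs_le_add_pow {x η : ℝ} (hx : |x| ≤ 1) (hη : 0 < η) (h : ℕ) :
    |x| ≤ η + x ^ (2 * h) / η ^ (2 * h) := by
  have h0 : 0 ≤ x ^ (2 * h) / η ^ (2 * h) := by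
    rw [pow_mul]; positivity
  by_cases h1 : |x| ≤ η
  · linarith
  · have h2 : η ^ (2 * h) ≤ |x| ^ (2 * h) := pow_le_pow_left₀ hη.le (not_le.1 h1).le _
    rw [(even_two_mul h).pow_abs] at h2
    have h3 : 1 ≤ x ^ (2 * h) / η ^ (2 * h) := (one_le_div (by positivity)).2 h2
    linarith

theorem numeric_bound (n n1 K b h : ℕ) (hn : n ≤ n1) (hh : h = 6 * (2 * K * b + 3)) (N : ℝ)
    (hN0 : 0 ≤ N) (hN : N ≤ 2 ^ b * 2 ^ (n * (2 * K * b + 2))) :
    N * (((2 * (h : ℝ) ^ 2 / 2 ^ n) ^ h + (1 / 4) ^ (n1 * h)) /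
      (2 * h * (3 / 4) ^ n) ^ (2 * h)) ≤ 2 ^ (b + 1) * (3 / 4) ^ n := by
  have h1 : (1 : ℝ) ≤ h := by
    have : 1 ≤ h := by omega
    exact_mod_cast this
  have e0 : (2 * (h : ℝ) * (3 / 4) ^ n) ^ (2 * h) = (4 * h ^ 2 * (9 / 16) ^ n) ^ h := by
    rw [pow_mul]
    congr 1
    rw [mul_pow, ← pow_mul, mul_comm n 2, pow_mul]
    norm_num
    ring
  have hpos : (0 : ℝ) < 4 * h ^ 2 * (9 / 16) ^ n := by positivity
  have a1 : (2 * (h : ℝ) ^ 2 / 2 ^ n) ≤ (8 / 9) ^ n * (4 * h ^ 2 * (9 / 16) ^ n) := by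
    have : ((8 : ℝ) / 9) ^ n * (4 * h ^ 2 * (9 / 16) ^ n) = 4 * h ^ 2 / 2 ^ n := by
      rw [mul_left_comm, ← mul_pow]
      norm_num
      rw [one_div, inv_pow, div_eq_mul_inv]
    rw [this]
    gcongr
    norm_num
  have a2 : ((1 : ℝ) / 4) ^ n1 ≤ (8 / 9) ^ n * (4 * h ^ 2 * (9 / 16) ^ n) := by
    have b1 : ((1 : ℝ) / 4) ^ n1 ≤ (1 / 4) ^ n := pow_le_pow_of_le_one (by norm_num) (by norm_num) hn
    have b2 : ((1 : ℝ) / 4) ^ n ≤ (1 / 2) ^ n := pow_le_pow_left₀ (by norm_num) (by norm_num) _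
    have b3 : ((8 : ℝ) / 9) ^ n * (4 * h ^ 2 * (9 / 16) ^ n) = 4 * h ^ 2 * (1 / 2) ^ n := by
      rw [mul_left_comm, ← mul_pow]
      norm_num
    have b4 : (0 : ℝ) ≤ (1 / 2) ^ n := by positivity
    have b5 : (1 : ℝ) ≤ 4 * h ^ 2 := by nlinarith
    rw [b3]
    nlinarith
  have a3 := pow_le_pow_left₀ (by positivity) a1 h
  have a4 := pow_le_pow_left₀ (by positivity) a2 h
  rw [← pow_mul] at a4
  rw [mul_pow] at a3 a4
  have a5 : ((2 * (h : ℝ) ^ 2 / 2 ^ n) ^ h + (1 / 4) ^ (n1 * h)) /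
      (2 * h * (3 / 4) ^ n) ^ (2 * h) ≤ 2 * ((8 / 9) ^ n) ^ h := by
    rw [e0, div_le_iff₀ (by positivity)]
    linarith
  have a6 : (((8 : ℝ) / 9) ^ n) ^ h ≤ (1 / 2) ^ (n * (2 * K * b + 3)) := by
    rw [← pow_mul, hh, show n * (6 * (2 * K * b + 3)) = 6 * (n * (2 * K * b + 3)) by ring, pow_mul]
    exact pow_le_pow_left₀ (by positivity) (by norm_num) _
  have a7 : (2 : ℝ) ^ (n * (2 * K * b + 2)) * (1 / 2) ^ (n * (2 * K * b + 3)) = (1 / 2) ^ n := by
    rw [show n * (2 * K * b + 3) = n * (2 * K * b + 2) + n by ring, pow_add, ← mul_assoc, ← mul_pow]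
    norm_num
  have a8 : ((1 : ℝ) / 2) ^ n ≤ (3 / 4) ^ n := pow_le_pow_left₀ (by norm_num) (by norm_num) _
  calc _ ≤ (2 ^ b * 2 ^ (n * (2 * K * b + 2))) * (2 * (1 / 2 : ℝ) ^ (n * (2 * K * b + 3))) :=
        mul_le_mul hN (a5.trans (by linarith)) (by positivity) (by positivity)
    _ = 2 ^ (b + 1) * (2 ^ (n * (2 * K * b + 2)) * (1 / 2 : ℝ) ^ (n * (2 * K * b + 3))) := by ring
    _ ≤ _ := by rw [a7]; gcongr

theorem sum_pow_card (x : ℝ) : ∑ U : Finset (Fin m), x ^ U.card = (1 + x) ^ m := by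
  have a1 : (∑ U ∈ (univ : Finset (Fin m)).powerset,
      x ^ U.card * 1 ^ ((univ : Finset (Fin m)).card - U.card))
      = (x + 1) ^ (univ : Finset (Fin m)).card := sum_pow_mul_eq_add_pow _ _ _
  simpa [add_comm] using a1

theorem exists_seed (w : ℕ) : ∃ K : ℕ, ∀ (m k n1 b h P : ℕ) [Fact P.Prime] (ρ : ℝ),
    0 ≤ ρ → ρ ≤ 1 → 2 * (1 + 2 * ρ) ^ k ≤ 2 ^ w → 2 * ρ * m ≤ n1 →
    (2 * m + 1) ^ (2 * w) + 1 ≤ 2 ^ b → h = 6 * (2 * K * b + 3) →
    4 ^ (n1 * h) * (2 * h * m + 1) ≤ P →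
    ∃ (a : ZMod P) (c : Fin (2 * h) → ZMod P),
      ∀ (nb : ℕ) (lits : Fin nb → Finset (Fin m × Bool)) (F : Finset (Fin nb)),
        (∀ g ∈ F, (vars lits g).card ≤ k) →
        |∑ z, ind lits F z * chi a c z| ≤
          2 ^ m * (2 * (2 * h + 2 ^ (b + 1) + 1) * Real.exp (-(ρ * m / 12))) := by
  obtain ⟨K, hK⟩ := sparsify (2 * w) (Real.log (10 / 9) / 2)
    (div_pos (Real.log_pos (by norm_num)) (by norm_num))
  refine ⟨K, fun m k n1 b h P _ ρ hρ0 hρ1 hκ hn1 hb hh hP => ?_⟩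
  have hh1 : (1 : ℝ) ≤ h := by
    have : 1 ≤ h := by omega
    exact_mod_cast this
  have hPpos : (0 : ℝ) < P := by exact_mod_cast (Fact.out : P.Prime).pos
  obtain ⟨c0, hc0⟩ : ∃ c0 : ZMod P → (Fin (2 * h) → ZMod P) → Finset (Fin m) → (Fin m → Bool) → ℝ,
      ∀ a c U z, c0 a c U z = 2 * h * (3 / 4) ^ U.card + ∑ p ∈ fam (2 * w) K U,
        corr (cube U z) tl (fun y => chi a c y / 2 ^ U.card) p.1 p.2 ^ (2 * h) /
          (2 * h * (3 / 4) ^ U.card) ^ (2 * h) := ⟨_, fun _ _ _ _ => rfl⟩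
  obtain ⟨cc, hcc⟩ : ∃ cc : ZMod P → (Fin (2 * h) → ZMod P) → Finset (Fin m) → (Fin m → Bool) → ℝ,
      ∀ a c U z, cc a c U z = if U.card ≤ n1 then c0 a c U z * (10 / 9) ^ U.card else 1 :=
    ⟨_, fun _ _ _ _ => rfl⟩
  have hbound : ∀ a c (nb : ℕ) (lits : Fin nb → Finset (Fin m × Bool)) U z (S : Finset (Fin nb)),
      (∀ g ∈ S, (vars lits g ∩ U).card ≤ w) →
      |avg U (fun y => ind lits S y * chi a c y) z| ≤ cc a c U z := by
    intro a c nb lits U z S hS
    obtain ⟨S', h1, h2, h3⟩ := avg_eq_corr lits w U z S hS (chi a c)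
    rw [h3, hcc]
    split_ifs
    · have e : Real.exp (Real.log (10 / 9) / 2 * (lam U).card) = (10 / 9) ^ U.card := by
        rw [card_lam]
        push_cast
        rw [show Real.log (10 / 9) / 2 * (2 * U.card) = U.card * Real.log (10 / 9) by ring,
          Real.exp_nat_mul, Real.exp_log (by norm_num)]
      rw [← e]
      refine hK _ _ _ _ _ (lam U) _ (fun S R g1 g2 g3 g4 => ?_) S' h1 h2
      have hmem : (S, R) ∈ fam (2 * w) K U := by
        simp only [fam, mem_product, mem_filter, mem_powerset]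
        exact ⟨⟨fun C hC => mem_filter.2 ⟨mem_powerset.2 (g1 C hC), g2 C hC⟩, g3⟩, g4⟩
      refine (abs_le_add_pow (abs_corr_le a c U z S R)
        (η := 2 * h * (3 / 4) ^ U.card) (by positivity) h).trans ?_
      rw [hc0]
      refine add_le_add le_rfl (single_le_sum (f := fun p : Finset (Finset (Fin m × Bool)) ×
        Finset (Fin m × Bool) => corr (cube U z) tl (fun y => chi a c y / 2 ^ U.card) p.1 p.2 ^
        (2 * h) / (2 * h * (3 / 4) ^ U.card) ^ (2 * h)) (fun p _ => ?_) hmem)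
      rw [pow_mul]
      positivity
    · exact abs_corr_le a c U z S' ∅
  have hexp : ∀ (U : Finset (Fin m)) (z : Fin m → Bool),
      ∑ a : ZMod P, ∑ c : Fin (2 * h) → ZMod P, cc a c U z ≤
      P ^ (2 * h + 1) * ((2 * h + 2 ^ (b + 1)) * (5 / 6) ^ U.card + 2 ^ U.card / 2 ^ n1) := by
    intro U z
    simp only [hcc]
    by_cases hU : U.card ≤ n1
    · simp only [if_pos hU, ← sum_mul]
      have hβ : 2 * (h : ℝ) * m + 1 ≤ (1 / 4) ^ (n1 * h) * P := by
        have : ((4 : ℝ) ^ (n1 * h) * (2 * h * m + 1)) ≤ P := by exact_mod_cast hP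
        rw [one_div, inv_pow, ← div_eq_inv_mul, le_div_iff₀ (by positivity)]
        linarith
      have a1 : ∑ a : ZMod P, ∑ c : Fin (2 * h) → ZMod P, c0 a c U z ≤
          P ^ (2 * h + 1) * ((2 * h + 2 ^ (b + 1)) * (3 / 4) ^ U.card) := by
        simp only [hc0, sum_add_distrib]
        rw [sum_congr rfl fun a _ => sum_comm (t := fam (2 * w) K U), sum_comm (t := fam (2 * w) K U)]
        simp only [← sum_div]
        have b1 := sum_le_card_nsmul (fam (2 * w) K U) _ _ fun p _ =>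
          corr_moment (P := P) h _ hβ U z p.1 p.2
        have b2 := numeric_bound U.card n1 K b h hU hh (fam (2 * w) K U).card (by positivity)
          (by exact_mod_cast card_fam (2 * w) K b hb U)
        have b3 := div_le_div_of_nonneg_right b1
          (show (0 : ℝ) ≤ (2 * h * (3 / 4) ^ U.card) ^ (2 * h) by positivity)
        have b4 := mul_le_mul_of_nonneg_left b2 (show (0 : ℝ) ≤ P ^ (2 * h + 1) by positivity)
        have b5 : ∑ a : ZMod P, ∑ c : Fin (2 * h) → ZMod P, 2 * (h : ℝ) * (3 / 4) ^ U.card =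
            P ^ (2 * h + 1) * (2 * h * (3 / 4) ^ U.card) := by
          simp [ZMod.card, pow_succ', mul_assoc]
        rw [nsmul_eq_mul] at b3
        rw [b5]
        refine (add_le_add le_rfl (b3.trans (le_trans (le_of_eq ?_) b4))).trans (le_of_eq ?_)
        · ring
        · ring
      have a2 : ((3 : ℝ) / 4) ^ U.card * (10 / 9) ^ U.card = (5 / 6) ^ U.card := by
        rw [← mul_pow]; norm_num
      refine (mul_le_mul_of_nonneg_right a1 (by positivity)).trans ?_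
      rw [mul_assoc, mul_assoc, a2]
      gcongr
      exact le_add_of_nonneg_right (by positivity)
    · simp only [if_neg hU]
      have b5 : ∑ a : ZMod P, ∑ c : Fin (2 * h) → ZMod P, (1 : ℝ) = P ^ (2 * h + 1) * 1 := by
        simp [ZMod.card, pow_succ']
      rw [b5]
      gcongr
      have : (1 : ℝ) ≤ 2 ^ U.card / 2 ^ n1 :=
        (one_le_div (by positivity)).2 (pow_le_pow_right₀ (by norm_num) (by omega))
      exact this.trans (le_add_of_nonneg_left (by positivity))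
  set B : ℝ := 2 ^ m * ((2 * h + 2 ^ (b + 1)) * (1 + ρ * (5 / 6)) ^ m + (1 + ρ * 2) ^ m / 2 ^ n1)
    with hB
  have htot : ∑ s : ZMod P × (Fin (2 * h) → ZMod P),
      (∑ U : Finset (Fin m), ρ ^ U.card * ∑ z, cc s.1 s.2 U z) ≤
      ∑ s : ZMod P × (Fin (2 * h) → ZMod P), B := by
    rw [sum_comm]
    simp only [← mul_sum]
    have a1 : ∀ U : Finset (Fin m), ρ ^ U.card * ∑ s : ZMod P × (Fin (2 * h) → ZMod P),
        ∑ z, cc s.1 s.2 U z ≤ P ^ (2 * h + 1) * 2 ^ m * ((2 * h + 2 ^ (b + 1)) *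
          (ρ * (5 / 6)) ^ U.card + (ρ * 2) ^ U.card / 2 ^ n1) := by
      intro U
      rw [sum_comm]
      have b1 := sum_le_card_nsmul (univ : Finset (Fin m → Bool)) _ _ fun z _ => hexp U z
      simp only [Fintype.sum_prod_type]
      refine (mul_le_mul_of_nonneg_left b1 (by positivity)).trans (le_of_eq ?_)
      simp only [card_univ, Fintype.card_pi, Fintype.card_bool, prod_const, Fintype.card_fin,
        nsmul_eq_mul, mul_pow]
      push_cast
      ring
    refine (sum_le_sum fun U _ => a1 U).trans (le_of_eq ?_)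
    rw [← mul_sum, sum_add_distrib, ← mul_sum, ← sum_div, sum_pow_card, sum_pow_card, hB]
    simp [ZMod.card, pow_succ', mul_assoc]
  obtain ⟨s, _, hs⟩ := exists_le_of_sum_le univ_nonempty htot
  refine ⟨s.1, s.2, fun nb lits F hF => ?_⟩
  have h1 := width_reduction lits F w k hF ρ hρ0 hκ (chi s.1 s.2) (cc s.1 s.2)
    (fun U z S hS => hbound s.1 s.2 nb lits U z S hS)
  rw [Fintype.card_fin] at h1
  have e1 : Real.exp (-(ρ * m / 12)) = Real.exp (-(ρ / 12)) ^ m := by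
    rw [← Real.exp_nat_mul]; congr 1; ring
  have a1 : (1 + ρ * (5 / 6)) ^ m ≤ (1 + ρ) ^ m * Real.exp (-(ρ * m / 12)) := by
    rw [e1, ← mul_pow]
    refine pow_le_pow_left₀ (by positivity) ?_ _
    have := Real.add_one_le_exp (-(ρ / 12))
    nlinarith
  have a2 : (1 + ρ * 2) ^ m / 2 ^ n1 ≤ (1 + ρ) ^ m * Real.exp (-(ρ * m / 12)) := by
    rw [div_le_iff₀ (by positivity)]
    have b1 : (1 + ρ * 2) ^ m ≤ ((1 + ρ) * Real.exp ρ) ^ m := by
      refine pow_le_pow_left₀ (by positivity) ?_ _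
      have := Real.add_one_le_exp ρ
      nlinarith
    have b2 : Real.exp ρ ^ m ≤ Real.exp (-(ρ * m / 12)) * 2 ^ n1 := by
      have c1 : (2 : ℝ) ^ n1 = Real.exp (n1 * Real.log 2) := by
        rw [Real.exp_nat_mul, Real.exp_log (by norm_num)]
      rw [c1, ← Real.exp_nat_mul, ← Real.exp_add, Real.exp_le_exp]
      have c2 := Real.log_two_gt_d9
      have c3 : 0 ≤ ρ * m := by positivity
      have c4 : (0 : ℝ) ≤ n1 := by positivity
      nlinarith
    rw [mul_pow] at b1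
    rw [mul_assoc]
    exact b1.trans (mul_le_mul_of_nonneg_left b2 (by positivity))
  have hpos : (0 : ℝ) < (1 + ρ) ^ m := by positivity
  refine le_of_mul_le_mul_left (h1.trans ?_) hpos
  have a3 : B ≤ 2 ^ m * ((2 * h + 2 ^ (b + 1)) * ((1 + ρ) ^ m * Real.exp (-(ρ * m / 12))) +
      (1 + ρ) ^ m * Real.exp (-(ρ * m / 12))) := by
    rw [hB]
    gcongr
  nlinarith

end Crest.Agent.R291
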