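import Mathlib

/-!
# The sparsification lemma of Impagliazzo, Paturi and Zane, in a disjoint, weighted form

A family `S` of finite sets (clauses, as sets of literals) is *hit* by `X` (the set of true
literals) when `X` meets every member.  We show that a signed count over the points hitting an
arbitrary family of sets of size at most `W` is controlled, up to a factor `exp (ε * |Λ|)`, by the
signed counts for families with linearly many members.
-/

namespace Crest.Agent.R291

open Finset

variable {α : Type*} [DecidableEq α]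

/-- The growth sequence of the thresholds. -/
def gam (a : ℕ) : ℕ → ℕ
  | 0 => 1
  | i + 1 => gam a i * (1 + 2 * (a * gam a i))

/-- The thresholds. -/
def th (a i : ℕ) : ℕ := a * gam a i

theorem gam_pos (a i : ℕ) : 0 < gam a i := by
  induction i with
  | zero => simp [gam]
  | succ i ih => simp only [gam]; positivity

theorem gam_mono (a : ℕ) : Monotone (gam a) := by
  refine monotone_nat_of_le_succ fun i => ?_
  simp only [gam]
  exact Nat.le_mul_of_pos_right _ (by omega)

theorem th_mono (a : ℕ) : Monotone (th a) := fun _ _ h =>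
  Nat.mul_le_mul_left _ (gam_mono a h)

theorem one_le_th {a : ℕ} (ha : 1 ≤ a) (i : ℕ) : 1 ≤ th a i :=
  Nat.mul_pos ha (gam_pos a i)

theorem gam_step (a i : ℕ) :
    (2 * th a i : ℝ) / gam a (i + 1) = 1 / gam a i - 1 / gam a (i + 1) := by
  have h1 : (0 : ℝ) < gam a i := by exact_mod_cast gam_pos a i
  have h2 : (gam a (i + 1) : ℝ) = gam a i * (1 + 2 * th a i) := by
    simp [gam, th]
  have h3 : (0 : ℝ) ≤ th a i := by positivity
  rw [h2]
  field_simp
  ring

/-- Number of members of size `j` containing `h`. -/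
def deg (S : Finset (Finset α)) (j : ℕ) (h : Finset α) : ℕ :=
  (S.filter fun C => C.card = j ∧ h ⊆ C).card

theorem deg_mono {S T : Finset (Finset α)} (hST : S ⊆ T) (j : ℕ) (h : Finset α) :
    deg S j h ≤ deg T j h :=
  card_le_card (filter_subset_filter _ hST)

theorem deg_union_le (S T : Finset (Finset α)) (j : ℕ) (h : Finset α) :
    deg (S ∪ T) j h ≤ deg S j h + deg T j h := by
  unfold deg
  rw [filter_union]
  exact card_union_le _ _

/-- `X` meets every member of `S`. -/
def Hits (S : Finset (Finset α)) (X : Finset α) : Prop := ∀ C ∈ S, ¬ Disjoint C X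

/-- The invariant of the sparsification process. -/
structure Inv (Λ : Finset α) (W a : ℕ) (S Nw : Finset (Finset α)) : Prop where
  sub : ∀ C ∈ S, C ⊆ Λ
  card : ∀ C ∈ S, C.card ≤ W
  anti : ∀ C ∈ S, ∀ D ∈ S, C ⊆ D → C = D
  nsub : Nw ⊆ S
  npos : ∀ C ∈ Nw, C.Nonempty
  ndeg : ∀ j h, h.Nonempty → h.card < j → deg Nw j h ≤ 2 * th a (j - h.card)

/-- The potentials. -/
noncomputable def psi (a i : ℕ) (Nw : Finset (Finset α)) : ℝ :=
  ∑ C ∈ Nw, if C.card ≤ i then 1 / (gam a C.card : ℝ) else 0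

/-- Adding the sets `Ad` and removing the sets they subsume. -/
def upd (S Ad : Finset (Finset α)) : Finset (Finset α) :=
  (S.filter fun C => ∀ B ∈ Ad, ¬ B ⊆ C) ∪ Ad

theorem hits_upd (S Ad : Finset (Finset α)) (X : Finset α) :
    Hits (upd S Ad) X ↔ Hits S X ∧ Hits Ad X := by
  constructor
  · intro h
    refine ⟨fun C hC => ?_, fun B hB => h B (mem_union_right _ hB)⟩
    by_cases hk : ∀ B ∈ Ad, ¬ B ⊆ C
    · exact h C (mem_union_left _ (mem_filter.2 ⟨hC, hk⟩))
    · push Not at hk
      obtain ⟨B, hB, hBC⟩ := hk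
      exact fun hd => h B (mem_union_right _ hB) (Disjoint.mono_left hBC hd)
  · rintro ⟨h1, h2⟩ C hC
    rcases mem_union.1 hC with hC | hC
    · exact h1 C (mem_filter.1 hC).1
    · exact h2 C hC

theorem sum_above_le {a : ℕ} {Nw : Finset (Finset α)}
    (hd : ∀ j h, h.Nonempty → h.card < j → deg Nw j h ≤ 2 * th a (j - h.card))
    {B : Finset α} (hB : B.Nonempty) {i : ℕ} (hi : B.card ≤ i) :
    (∑ C ∈ Nw, if B ⊆ C ∧ B.card < C.card ∧ C.card ≤ i then 1 / (gam a C.card : ℝ) else 0)
      ≤ 1 / gam a B.card - 1 / gam a i := by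
  induction i, hi using Nat.le_induction with
  | base =>
    rw [sub_self]
    refine le_of_eq (sum_eq_zero fun C _ => ?_)
    rw [if_neg]
    rintro ⟨_, h1, h2⟩
    omega
  | succ i hi ih =>
    have h1 : (∑ C ∈ Nw, if B ⊆ C ∧ B.card < C.card ∧ C.card ≤ i + 1 then
        1 / (gam a C.card : ℝ) else 0) =
        (∑ C ∈ Nw, if B ⊆ C ∧ B.card < C.card ∧ C.card ≤ i then 1 / (gam a C.card : ℝ) else 0)
        + ∑ C ∈ Nw, if C.card = i + 1 ∧ B ⊆ C then 1 / (gam a (i + 1) : ℝ) else 0 := by
      rw [← sum_add_distrib]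
      refine sum_congr rfl fun C _ => ?_
      by_cases hBC : B ⊆ C
      · by_cases hc : C.card = i + 1
        · rw [if_pos ⟨hBC, by omega, by omega⟩, if_neg (by omega), if_pos ⟨hc, hBC⟩, hc]; simp
        · by_cases hc2 : B.card < C.card ∧ C.card ≤ i
          · rw [if_pos ⟨hBC, by omega, by omega⟩, if_pos ⟨hBC, hc2⟩, if_neg (by tauto)]; simp
          · rw [if_neg (by omega), if_neg (by tauto), if_neg (by tauto)]; simp
      · simp [hBC]
    have h2 : (∑ C ∈ Nw, if C.card = i + 1 ∧ B ⊆ C then 1 / (gam a (i + 1) : ℝ) else 0)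
        = deg Nw (i + 1) B / gam a (i + 1) := by
      rw [← sum_filter, sum_const, nsmul_eq_mul, deg]; ring
    have h3 : deg Nw (i + 1) B ≤ 2 * th a i := by
      refine (hd (i + 1) B hB (by omega)).trans (Nat.mul_le_mul_left _ (th_mono a ?_))
      have := hB.card_pos
      omega
    have h4 : (deg Nw (i + 1) B : ℝ) ≤ 2 * th a i := by exact_mod_cast h3
    have h5 : (0 : ℝ) < gam a (i + 1) := by exact_mod_cast gam_pos a (i + 1)
    have h6 := div_le_div_of_nonneg_right h4 h5.le
    rw [gam_step] at h6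
    rw [h1, h2]
    linarith

theorem psi_le {Λ : Finset α} {W a : ℕ} (ha : 1 ≤ a) {S Nw : Finset (Finset α)}
    (h : Inv Λ W a S Nw) (i : ℕ) : psi a i Nw ≤ Λ.card := by
  have hg1 : (2 : ℝ) ≤ gam a 1 := by
    have : 2 ≤ gam a 1 := by simp [gam]; omega
    exact_mod_cast this
  have key : ∀ l ∈ Λ, (∑ C ∈ Nw, if l ∈ C ∧ C.card ≤ i then 1 / (gam a C.card : ℝ) else 0)
      ≤ 1 := by
    intro l _
    rcases Nat.eq_zero_or_pos i with rfl | hi
    · refine le_trans (le_of_eq (sum_eq_zero fun C _ => ?_)) zero_le_one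
      rw [if_neg]
      rintro ⟨h1, h2⟩
      have := card_pos.2 ⟨l, h1⟩
      omega
    have h1 := sum_above_le h.ndeg (singleton_nonempty l) (i := i) (by rw [card_singleton]; exact hi)
    have h2 : (∑ C ∈ Nw, if C = {l} then 1 / (gam a 1 : ℝ) else 0) ≤ 1 / gam a 1 := by
      rw [sum_ite_eq']
      split_ifs
      · exact le_rfl
      · positivity
    have h3 : (∑ C ∈ Nw, if l ∈ C ∧ C.card ≤ i then 1 / (gam a C.card : ℝ) else 0) ≤
        (∑ C ∈ Nw, if C = {l} then 1 / (gam a 1 : ℝ) else 0) +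
        ∑ C ∈ Nw, if {l} ⊆ C ∧ ({l} : Finset α).card < C.card ∧ C.card ≤ i then
          1 / (gam a C.card : ℝ) else 0 := by
      rw [← sum_add_distrib]
      refine sum_le_sum fun C _ => ?_
      by_cases hc : l ∈ C ∧ C.card ≤ i
      · by_cases h1 : C = {l}
        · subst h1; simp [Nat.succ_le_of_lt hi]
        · have : 1 < C.card := by
            by_contra hh
            have h0 := card_pos.2 ⟨l, hc.1⟩
            obtain ⟨x, hx⟩ := card_eq_one.1 (show C.card = 1 by omega)
            rw [hx] at hc h1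
            simp at hc
            exact h1 (by rw [hc.1])
          rw [if_pos hc, if_neg h1, if_pos ⟨by simpa using hc.1, by simpa using this, hc.2⟩]
          simp
      · rw [if_neg hc]
        apply add_nonneg <;> split_ifs <;> positivity
    simp only [card_singleton] at h1 h3
    have h4 : (0 : ℝ) ≤ 1 / gam a i := by positivity
    have h5 : (1 : ℝ) / gam a 1 ≤ 1 / 2 := one_div_le_one_div_of_le (by norm_num) hg1
    linarith
  calc psi a i Nw ≤ ∑ C ∈ Nw, ∑ l ∈ Λ,
        if l ∈ C ∧ C.card ≤ i then 1 / (gam a C.card : ℝ) else 0 := by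
        refine sum_le_sum fun C hC => ?_
        obtain ⟨l, hl⟩ := h.npos C hC
        refine le_trans ?_ (single_le_sum (f := fun l => if l ∈ C ∧ C.card ≤ i then
          1 / (gam a C.card : ℝ) else 0) (fun l _ => by split_ifs <;> positivity)
          (h.sub C (h.nsub hC) hl))
        simp [hl]
    _ = ∑ l ∈ Λ, ∑ C ∈ Nw, if l ∈ C ∧ C.card ≤ i then 1 / (gam a C.card : ℝ) else 0 := sum_comm
    _ ≤ ∑ l ∈ Λ, (1 : ℝ) := sum_le_sum key
    _ = Λ.card := by simp

theorem inv_upd {Λ : Finset α} {W a : ℕ} {S Nw Ad : Finset (Finset α)} (h : Inv Λ W a S Nw)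
    {s : ℕ} (hs : 0 < s) (hc : ∀ B ∈ Ad, B.card = s) (hp : ∀ B ∈ Ad, ∃ C ∈ S, B ⊂ C)
    (hd1 : ∀ g : Finset α, g.Nonempty → g.card < s → deg S s g ≤ th a (s - g.card))
    (hd2 : ∀ g : Finset α, g.Nonempty → g.card < s → deg Ad s g ≤ th a (s - g.card)) :
    Inv Λ W a (upd S Ad) (upd Nw Ad) where
  sub C hC := by
    rcases mem_union.1 hC with hC | hC
    · exact h.sub C (mem_filter.1 hC).1
    · obtain ⟨D, hD, hCD⟩ := hp C hC
      exact hCD.subset.trans (h.sub D hD)
  card C hC := by
    rcases mem_union.1 hC with hC | hC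
    · exact h.card C (mem_filter.1 hC).1
    · obtain ⟨D, hD, hCD⟩ := hp C hC
      exact (card_le_card hCD.subset).trans (h.card D hD)
  anti C hC D hD hCD := by
    rcases mem_union.1 hC with hC | hC <;> rcases mem_union.1 hD with hD | hD
    · exact h.anti C (mem_filter.1 hC).1 D (mem_filter.1 hD).1 hCD
    · obtain ⟨E, hE, hDE⟩ := hp D hD
      have := h.anti C (mem_filter.1 hC).1 E hE (hCD.trans hDE.subset)
      subst this
      exact absurd (hCD.trans_ssubset hDE) (ssubset_irrefl _)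
    · exact absurd hCD ((mem_filter.1 hD).2 C hC)
    · exact eq_of_subset_of_card_le hCD (by rw [hc C hC, hc D hD])
  nsub := union_subset_union (filter_subset_filter _ h.nsub) Subset.rfl
  npos C hC := by
    rcases mem_union.1 hC with hC | hC
    · exact h.npos C (mem_filter.1 hC).1
    · exact card_pos.1 (by rw [hc C hC]; exact hs)
  ndeg j g hg hj := by
    refine (deg_union_le _ _ _ _).trans ?_
    have h1 : deg (Nw.filter fun C => ∀ B ∈ Ad, ¬ B ⊆ C) j g ≤ deg Nw j g :=
      deg_mono (filter_subset _ _) _ _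
    by_cases hjs : j = s
    · subst hjs
      have h2 := deg_mono h.nsub j g
      have h3 := hd1 g hg hj
      have h4 := hd2 g hg hj
      omega
    · have h2 : deg Ad j g = 0 := by
        unfold deg
        rw [card_eq_zero, filter_eq_empty_iff]
        intro B hB hh
        exact hjs (hh.1.symm.trans (hc B hB))
      have h3 := h.ndeg j g hg hj
      omega

theorem psi_upd {Λ : Finset α} {W a : ℕ} {S Nw Ad : Finset (Finset α)} (h : Inv Λ W a S Nw)
    {s : ℕ} (hs : 0 < s) (hc : ∀ B ∈ Ad, B.card = s) (hp : ∀ B ∈ Ad, ∃ C ∈ S, B ⊂ C) (i : ℕ) :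
    psi a i Nw + (if s ≤ i then (Ad.card : ℝ) / gam a i else 0) ≤ psi a i (upd Nw Ad) := by
  have hdisj : Disjoint (Nw.filter fun C => ∀ B ∈ Ad, ¬ B ⊆ C) Ad := by
    rw [disjoint_left]
    intro C hC hC2
    exact (mem_filter.1 hC).2 C hC2 Subset.rfl
  have e1 : psi a i (upd Nw Ad) = psi a i (Nw.filter fun C => ∀ B ∈ Ad, ¬ B ⊆ C) + psi a i Ad := by
    unfold psi upd
    rw [sum_union hdisj]
  have e2 : psi a i Ad = if s ≤ i then (Ad.card : ℝ) / gam a s else 0 := by
    unfold psi
    rw [sum_congr rfl (g := fun _ => if s ≤ i then 1 / (gam a s : ℝ) else 0)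
      (fun B hB => by rw [hc B hB]), sum_const, nsmul_eq_mul]
    split_ifs <;> ring
  have e3 : psi a i Nw ≤ psi a i (Nw.filter fun C => ∀ B ∈ Ad, ¬ B ⊆ C) +
      ∑ B ∈ Ad, ∑ C ∈ Nw, if B ⊆ C ∧ B.card < C.card ∧ C.card ≤ i then
        1 / (gam a C.card : ℝ) else 0 := by
    unfold psi
    rw [sum_comm, sum_filter, ← sum_add_distrib]
    refine sum_le_sum fun C hC => ?_
    have hnn : ∀ B ∈ Ad, (0 : ℝ) ≤ if B ⊆ C ∧ B.card < C.card ∧ C.card ≤ i then
        1 / (gam a C.card : ℝ) else 0 := fun B _ => by split_ifs <;> positivity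
    by_cases hk : ∀ B ∈ Ad, ¬ B ⊆ C
    · rw [if_pos hk]
      exact le_add_of_nonneg_right (sum_nonneg hnn)
    · rw [if_neg hk, zero_add]
      push Not at hk
      obtain ⟨B, hB, hBC⟩ := hk
      refine le_trans ?_ (single_le_sum hnn hB)
      have hlt : B.card < C.card := by
        by_contra hh
        have : B = C := eq_of_subset_of_card_le hBC (by omega)
        subst this
        obtain ⟨E, hE, hBE⟩ := hp B hB
        have := h.anti B (h.nsub hC) E hE hBE.subset
        subst this
        exact ssubset_irrefl _ hBE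
      simp [hBC, hlt]
  by_cases hsi : s ≤ i
  · have e4 : (∑ B ∈ Ad, ∑ C ∈ Nw, if B ⊆ C ∧ B.card < C.card ∧ C.card ≤ i then
        1 / (gam a C.card : ℝ) else 0) ≤ ∑ B ∈ Ad, (1 / (gam a s : ℝ) - 1 / gam a i) := by
      refine sum_le_sum fun B hB => ?_
      have := sum_above_le h.ndeg (B := B) (card_pos.1 (by rw [hc B hB]; exact hs)) (i := i)
        (by rw [hc B hB]; exact hsi)
      rw [hc B hB] at this ⊢
      exact this
    rw [sum_const, nsmul_eq_mul] at e4
    rw [e1, e2, if_pos hsi, if_pos hsi]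
    have : (Ad.card : ℝ) * (1 / (gam a s : ℝ) - 1 / gam a i) =
        Ad.card / gam a s - Ad.card / gam a i := by ring
    linarith
  · have e4 : (∑ B ∈ Ad, ∑ C ∈ Nw, if B ⊆ C ∧ B.card < C.card ∧ C.card ≤ i then
        1 / (gam a C.card : ℝ) else 0) = 0 := by
      refine sum_eq_zero fun B hB => sum_eq_zero fun C _ => ?_
      rw [if_neg]
      rw [hc B hB]
      omega
    rw [e1, e2, if_neg hsi, if_neg hsi]
    linarith

theorem card_le_of_no_flower {Λ : Finset α} {W a : ℕ} (ha : 1 ≤ a) {S : Finset (Finset α)}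
    (hsub : ∀ C ∈ S, C ⊆ Λ) (hcard : ∀ C ∈ S, C.card ≤ W)
    (hno : ∀ j (h : Finset α), h.Nonempty → h.card < j → deg S j h < th a (j - h.card)) :
    S.card ≤ (W + 1) * th a W * Λ.card + 1 := by
  have key : ∀ l ∈ Λ, (S.filter fun C => l ∈ C).card ≤ (W + 1) * th a W := by
    intro l _
    have h1 : (S.filter fun C => l ∈ C) ⊆
        (range (W + 1)).biUnion fun j => S.filter fun C => C.card = j ∧ {l} ⊆ C := by
      intro C hC
      rw [mem_filter] at hC
      rw [mem_biUnion]
      exact ⟨C.card, mem_range.2 (Nat.lt_succ_of_le (hcard C hC.1)),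
        mem_filter.2 ⟨hC.1, rfl, by simpa using hC.2⟩⟩
    refine (card_le_card h1).trans (card_biUnion_le.trans ?_)
    refine (sum_le_card_nsmul _ _ (th a W) fun j hj => ?_).trans (by simp)
    rw [mem_range] at hj
    by_cases h2 : 1 < j
    · have := hno j {l} (singleton_nonempty l) (by simpa using h2)
      have h3 := th_mono a (show j - ({l} : Finset α).card ≤ W by omega)
      unfold deg at this
      omega
    · refine le_trans ?_ (one_le_th ha W)
      rw [card_le_one]
      intro C hC D hD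
      rw [mem_filter] at hC hD
      have e1 : {l} = C := eq_of_subset_of_card_le hC.2.2 (by simp; omega)
      have e2 : {l} = D := eq_of_subset_of_card_le hD.2.2 (by simp; omega)
      rw [← e1, ← e2]
  have h1 : S ⊆ insert ∅ (Λ.biUnion fun l => S.filter fun C => l ∈ C) := by
    intro C hC
    rw [mem_insert]
    rcases C.eq_empty_or_nonempty with h | ⟨l, hl⟩
    · exact Or.inl h
    · exact Or.inr (mem_biUnion.2 ⟨l, hsub C hC hl, mem_filter.2 ⟨hC, hl⟩⟩)
  refine (card_le_card h1).trans ((card_insert_le _ _).trans (Nat.add_le_add_right ?_ _))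
  refine card_biUnion_le.trans ((sum_le_card_nsmul _ _ _ key).trans ?_)
  simp [mul_comm]

open Classical in
/-- The signed count of the points hitting `S` and avoiding `R`. -/
noncomputable def corr {Ω : Type*} (Q : Finset Ω) (τ : Ω → Finset α) (φ : Ω → ℝ)
    (S : Finset (Finset α)) (R : Finset α) : ℝ :=
  ∑ ω ∈ Q, if Hits S (τ ω) ∧ Disjoint R (τ ω) then φ ω else 0

theorem corr_split {Ω : Type*} (Q : Finset Ω) (τ : Ω → Finset α) (φ : Ω → ℝ)
    (S : Finset (Finset α)) (R h : Finset α) (Fl : Finset (Finset α)) (hFl : Fl ⊆ S) :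
    corr Q τ φ S R = corr Q τ φ (upd S {h}) R +
      corr Q τ φ (upd S (Fl.image fun C => C \ h)) (R ∪ h) := by
  classical
  unfold corr
  rw [← sum_add_distrib]
  refine sum_congr rfl fun ω _ => ?_
  simp only [hits_upd, disjoint_union_left]
  have e1 : Hits {h} (τ ω) ↔ ¬ Disjoint h (τ ω) := by simp [Hits]
  by_cases hd : Disjoint h (τ ω)
  · by_cases hS : Hits S (τ ω)
    · have e2 : Hits (Fl.image fun C => C \ h) (τ ω) := by
        intro B hB
        obtain ⟨C, hC, rfl⟩ := mem_image.1 hB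
        intro hh
        apply hS C (hFl hC)
        rw [disjoint_left] at hh hd ⊢
        intro x hx
        by_cases hxh : x ∈ h
        · exact hd hxh
        · exact hh (mem_sdiff.2 ⟨hx, hxh⟩)
      simp [e1, hd, hS, e2]
    · simp [hS]
  · simp [e1, hd]

theorem sparsify_aux {Ω : Type*} (Q : Finset Ω) (τ : Ω → Finset α) (φ : Ω → ℝ)
    (Λ : Finset α) (W a : ℕ) (ha : 1 ≤ a) (e c : ℝ) (he : 0 ≤ e)
    (hea : Real.exp (-(e / gam a W)) + Real.exp (-(e * a)) ≤ 1)
    (hc : ∀ (S : Finset (Finset α)) (R : Finset α), (∀ C ∈ S, C ⊆ Λ) → (∀ C ∈ S, C.card ≤ W) →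
      S.card ≤ (W + 1) * th a W * Λ.card + 1 → R ⊆ Λ → |corr Q τ φ S R| ≤ c) (n : ℕ) :
    ∀ (S Nw : Finset (Finset α)) (R : Finset α), Inv Λ W a S Nw → R ⊆ Λ →
      (gam a W : ℝ) * (Λ.card - psi a W Nw) < n →
      |corr Q τ φ S R| ≤ c * Real.exp (e * (Λ.card - psi a W Nw) +
        e * ∑ i ∈ range (W + 1), (Λ.card - psi a i Nw)) := by
  have hc0 : 0 ≤ c := le_trans (abs_nonneg _)
    (hc ∅ ∅ (by simp) (by simp) (by simp) (empty_subset _))
  have hgW : (0 : ℝ) < gam a W := by exact_mod_cast gam_pos a W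
  induction n with
  | zero =>
    intro S Nw R h _ hn
    have := psi_le ha h W
    have : 0 ≤ (gam a W : ℝ) * (Λ.card - psi a W Nw) := mul_nonneg hgW.le (by linarith)
    simp at hn
    linarith
  | succ n ih =>
    intro S Nw R h hR hn
    by_cases hno : ∀ j (g : Finset α), g.Nonempty → g.card < j → deg S j g < th a (j - g.card)
    · refine (hc S R h.sub h.card (card_le_of_no_flower ha h.sub h.card hno) hR).trans ?_
      refine le_mul_of_one_le_right hc0 (Real.one_le_exp ?_)
      have h1 := psi_le ha h W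
      have h2 : 0 ≤ ∑ i ∈ range (W + 1), ((Λ.card : ℝ) - psi a i Nw) :=
        sum_nonneg fun i _ => sub_nonneg.2 (psi_le ha h i)
      have h3 : 0 ≤ (Λ.card : ℝ) - psi a W Nw := by linarith
      positivity
    classical
    have hex : ∃ j, ∃ i, ∃ g : Finset α, g.Nonempty ∧ g.card + i = j ∧ 0 < i ∧
        th a i ≤ deg S j g := by
      push Not at hno
      obtain ⟨j, g, hg, hj, hd⟩ := hno
      exact ⟨j, j - g.card, g, hg, by omega, by omega, hd⟩
    obtain ⟨j, hj, hjmin⟩ : ∃ j, (∃ i, ∃ g : Finset α, g.Nonempty ∧ g.card + i = j ∧ 0 < i ∧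
        th a i ≤ deg S j g) ∧ ∀ j' < j, ¬ ∃ i, ∃ g : Finset α, g.Nonempty ∧ g.card + i = j' ∧
        0 < i ∧ th a i ≤ deg S j' g := ⟨Nat.find hex, Nat.find_spec hex, fun _ => Nat.find_min hex⟩
    obtain ⟨i, ⟨g, hg, hgi, hi, hd⟩, himin⟩ : ∃ i, (∃ g : Finset α, g.Nonempty ∧
        g.card + i = j ∧ 0 < i ∧ th a i ≤ deg S j g) ∧ ∀ i' < i, ¬ ∃ g : Finset α, g.Nonempty ∧
        g.card + i' = j ∧ 0 < i' ∧ th a i' ≤ deg S j g :=
      ⟨Nat.find hj, Nat.find_spec hj, fun _ => Nat.find_min hj⟩
    have hgpos := hg.card_pos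
    have hlow : ∀ s < j, ∀ g' : Finset α, g'.Nonempty → g'.card < s →
        deg S s g' ≤ th a (s - g'.card) := by
      intro s hs g' hg' hlt
      by_contra hh
      exact hjmin s hs ⟨s - g'.card, g', hg', by omega, by omega, by omega⟩
    set Fl := S.filter fun C => C.card = j ∧ g ⊆ C with hFl
    have hFlc : th a i ≤ Fl.card := hd
    obtain ⟨C0, hC0⟩ : Fl.Nonempty := card_pos.1 (lt_of_lt_of_le (one_le_th ha i) hFlc)
    have hC0' := mem_filter.1 hC0
    have hjW : j ≤ W := hC0'.2.1 ▸ h.card C0 hC0'.1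
    -- the heart step
    have hH1 : ∀ B ∈ ({g} : Finset (Finset α)), B.card = g.card := by simp
    have hH2 : ∀ B ∈ ({g} : Finset (Finset α)), ∃ C ∈ S, B ⊂ C := by
      intro B hB
      rw [mem_singleton.1 hB]
      refine ⟨C0, hC0'.1, Finset.ssubset_iff_subset_ne.2 ⟨hC0'.2.2, ?_⟩⟩
      intro hh
      have := hC0'.2.1
      rw [← hh] at this
      omega
    have invH : Inv Λ W a (upd S {g}) (upd Nw {g}) := by
      refine inv_upd h hgpos hH1 hH2 (hlow _ (by omega)) fun g' _ _ => ?_
      refine le_trans ?_ (one_le_th ha _)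
      exact (card_le_card (filter_subset _ _)).trans (by simp)
    have psiH := psi_upd h hgpos hH1 hH2
    -- the petal step
    set Pe := Fl.image fun C => C \ g with hPe
    have hinj : Set.InjOn (fun C => C \ g) (Fl : Set (Finset α)) := by
      intro C hC D hD hCD
      have h1 := (mem_filter.1 (mem_coe.1 hC)).2.2
      have h2 := (mem_filter.1 (mem_coe.1 hD)).2.2
      rw [← sdiff_union_of_subset h1, ← sdiff_union_of_subset h2]
      exact congrArg (· ∪ g) hCD
    have hPec : Pe.card = Fl.card := card_image_of_injOn hinj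
    have hP1 : ∀ B ∈ Pe, B.card = i := by
      intro B hB
      obtain ⟨C, hC, rfl⟩ := mem_image.1 hB
      have h1 := (mem_filter.1 hC).2
      rw [card_sdiff_of_subset h1.2]
      omega
    have hP2 : ∀ B ∈ Pe, ∃ C ∈ S, B ⊂ C := by
      intro B hB
      obtain ⟨C, hC, rfl⟩ := mem_image.1 hB
      have h1 := mem_filter.1 hC
      exact ⟨C, h1.1, sdiff_ssubset h1.2.2 hg⟩
    have invP : Inv Λ W a (upd S Pe) (upd Nw Pe) := by
      refine inv_upd h hi hP1 hP2 (hlow _ (by omega)) fun g' hg' hlt => ?_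
      by_cases hdis : Disjoint g g'
      · have h1 : deg Pe i g' ≤ deg S j (g ∪ g') := by
          unfold deg
          refine le_trans (card_le_card (t := (S.filter fun C => C.card = j ∧ g ∪ g' ⊆ C).image
            fun C => C \ g) ?_) card_image_le
          intro B hB
          rw [mem_filter] at hB
          obtain ⟨C, hC, rfl⟩ := mem_image.1 hB.1
          have h1 := mem_filter.1 hC
          exact mem_image.2 ⟨C, mem_filter.2 ⟨h1.1, h1.2.1,
            union_subset h1.2.2 (hB.2.2.trans sdiff_subset)⟩, rfl⟩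
        have h2 := hg'.card_pos
        by_contra hh
        refine himin (i - g'.card) (by omega) ⟨g ∪ g', hg.mono subset_union_left, ?_, by omega,
          by omega⟩
        rw [card_union_of_disjoint hdis]
        omega
      · have h1 : deg Pe i g' = 0 := by
          unfold deg
          rw [card_eq_zero, filter_eq_empty_iff]
          intro B hB hh
          obtain ⟨C, hC, rfl⟩ := mem_image.1 hB
          exact hdis (Disjoint.mono_right hh.2 disjoint_sdiff)
        omega
    have psiP := psi_upd h hi hP1 hP2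
    have hgΛ : g ⊆ Λ := hC0'.2.2.trans (h.sub C0 hC0'.1)
    -- potentials
    have a1 : psi a W Nw + 1 / gam a W ≤ psi a W (upd Nw {g}) := by
      have := psiH W
      rw [if_pos (by omega)] at this
      simpa using this
    have a2 : ∀ i', psi a i' Nw ≤ psi a i' (upd Nw {g}) := by
      intro i'
      refine le_trans (le_add_of_nonneg_right ?_) (psiH i')
      split_ifs <;> positivity
    have hPe1 : (th a i : ℝ) ≤ Pe.card := by exact_mod_cast hPec ▸ hFlc
    have hth1 : (1 : ℝ) ≤ th a i := by exact_mod_cast one_le_th ha i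
    have b1 : psi a W Nw + 1 / gam a W ≤ psi a W (upd Nw Pe) := by
      have := psiP W
      rw [if_pos (by omega)] at this
      have h2 : 1 / (gam a W : ℝ) ≤ Pe.card / gam a W :=
        div_le_div_of_nonneg_right (hth1.trans hPe1) hgW.le
      linarith
    have b2 : ∀ i', psi a i' Nw ≤ psi a i' (upd Nw Pe) := by
      intro i'
      refine le_trans (le_add_of_nonneg_right ?_) (psiP i')
      split_ifs <;> positivity
    have b3 : psi a i Nw + a ≤ psi a i (upd Nw Pe) := by
      have := psiP i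
      rw [if_pos le_rfl] at this
      have hgi' : (0 : ℝ) < gam a i := by exact_mod_cast gam_pos a i
      have h2 : (a : ℝ) ≤ Pe.card / gam a i := by
        rw [le_div_iff₀ hgi']
        have : (th a i : ℝ) = a * gam a i := by simp [th]
        linarith
      linarith
    have hdec : ∀ x : ℝ, psi a W Nw + 1 / gam a W ≤ x → (gam a W : ℝ) * (Λ.card - x) < n := by
      intro x hx
      have h1 : (gam a W : ℝ) * (Λ.card - x) ≤
          gam a W * (Λ.card - (psi a W Nw + 1 / gam a W)) :=
        mul_le_mul_of_nonneg_left (by linarith) hgW.le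
      have h2 : (gam a W : ℝ) * (Λ.card - (psi a W Nw + 1 / gam a W)) =
          gam a W * (Λ.card - psi a W Nw) - 1 := by field_simp; ring
      push_cast at hn
      linarith
    have r1 := ih _ _ R invH hR (hdec _ a1)
    have r2 := ih _ _ (R ∪ g) invP (union_subset hR hgΛ) (hdec _ b1)
    set T := e * (Λ.card - psi a W Nw) + e * ∑ i ∈ range (W + 1), (Λ.card - psi a i Nw) with hT
    have s1 : e * (Λ.card - psi a W (upd Nw {g})) +
        e * ∑ i ∈ range (W + 1), (Λ.card - psi a i (upd Nw {g})) ≤ T + -(e / gam a W) := by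
      have h1 : ∑ i ∈ range (W + 1), ((Λ.card : ℝ) - psi a i (upd Nw {g})) ≤
          ∑ i ∈ range (W + 1), ((Λ.card : ℝ) - psi a i Nw) :=
        sum_le_sum fun i' _ => by linarith [a2 i']
      have h2 := mul_le_mul_of_nonneg_left h1 he
      have h3 := mul_le_mul_of_nonneg_left a1 he
      have h4 : e * (psi a W Nw + 1 / gam a W) = e * psi a W Nw + e / gam a W := by ring
      rw [hT]
      nlinarith
    have s2 : e * (Λ.card - psi a W (upd Nw Pe)) +
        e * ∑ i ∈ range (W + 1), (Λ.card - psi a i (upd Nw Pe)) ≤ T + -(e * a) := by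
      have hmem : i ∈ range (W + 1) := mem_range.2 (by omega)
      have h1 : ∑ i ∈ range (W + 1), ((Λ.card : ℝ) - psi a i (upd Nw Pe)) + a ≤
          ∑ i ∈ range (W + 1), ((Λ.card : ℝ) - psi a i Nw) := by
        rw [← add_sum_erase _ _ hmem, ← add_sum_erase _ _ hmem]
        have : ∑ i ∈ (range (W + 1)).erase i, ((Λ.card : ℝ) - psi a i (upd Nw Pe)) ≤
            ∑ i ∈ (range (W + 1)).erase i, ((Λ.card : ℝ) - psi a i Nw) :=
          sum_le_sum fun i' _ => by linarith [b2 i']
        linarith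
      have h2 := mul_le_mul_of_nonneg_left h1 he
      have h3 := mul_le_mul_of_nonneg_left (b2 W) he
      rw [hT]
      nlinarith
    rw [corr_split Q τ φ S R g Fl (filter_subset _ _)]
    have t1 := mul_le_mul_of_nonneg_left (Real.exp_le_exp.2 s1) hc0
    have t2 := mul_le_mul_of_nonneg_left (Real.exp_le_exp.2 s2) hc0
    rw [Real.exp_add T] at t1 t2
    have t3 : c * Real.exp T * (Real.exp (-(e / gam a W)) + Real.exp (-(e * a))) ≤
        c * Real.exp T * 1 := mul_le_mul_of_nonneg_left hea (by positivity)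
    have t4 := abs_add_le (corr Q τ φ (upd S {g}) R) (corr Q τ φ (upd S Pe) (R ∪ g))
    refine t4.trans ?_
    nlinarith

theorem gam_le_exp (i : ℕ) : ∀ δ : ℝ, 0 < δ →
    ∀ᶠ a : ℕ in Filter.atTop, (gam a i : ℝ) ≤ Real.exp (δ * a) := by
  induction i with
  | zero =>
    intro δ hδ
    refine Filter.Eventually.of_forall fun a => ?_
    simp only [gam, Nat.cast_one]
    exact Real.one_le_exp (by positivity)
  | succ i ih =>
    intro δ hδ
    have h1 := ih (δ / 4) (by positivity)
    have h2 : ∀ᶠ a : ℕ in Filter.atTop, (64 / δ ^ 2 : ℝ) ≤ a :=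
      tendsto_natCast_atTop_atTop.eventually_ge_atTop _
    filter_upwards [h1, h2, Filter.eventually_ge_atTop 1] with a h1 h2 h3
    have h3' : (1 : ℝ) ≤ a := by exact_mod_cast h3
    have hg : (1 : ℝ) ≤ gam a i := by exact_mod_cast gam_pos a i
    have h4 : (3 * a : ℝ) ≤ Real.exp (δ / 4 * a) * Real.exp (δ / 4 * a) := by
      have h5 : δ / 4 * a ≤ Real.exp (δ / 4 * a) := by
        linarith [Real.add_one_le_exp (δ / 4 * a)]
      have h6 : 0 ≤ δ / 4 * a := by positivity
      have h7 : (64 : ℝ) ≤ a * δ ^ 2 := by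
        rwa [div_le_iff₀ (by positivity)] at h2
      calc (3 * a : ℝ) ≤ (δ / 4 * a) * (δ / 4 * a) := by nlinarith
        _ ≤ _ := mul_le_mul h5 h5 h6 (Real.exp_pos _).le
    have h5 : Real.exp (δ * a) = Real.exp (δ / 4 * a) * Real.exp (δ / 4 * a) *
        (Real.exp (δ / 4 * a) * Real.exp (δ / 4 * a)) := by
      rw [← Real.exp_add, ← Real.exp_add]; ring_nf
    have h6 : (gam a (i + 1) : ℝ) = gam a i * (1 + 2 * (a * gam a i)) := by simp [gam]
    have h7 : (gam a i : ℝ) * (1 + 2 * (a * gam a i)) ≤ gam a i * gam a i * (3 * a) := by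
      have : (1 : ℝ) ≤ a * gam a i := by nlinarith
      nlinarith
    rw [h5, h6]
    refine h7.trans (mul_le_mul (mul_le_mul h1 h1 (by positivity) (by positivity)) h4
      (by positivity) (by positivity))

theorem exists_param (W : ℕ) (e : ℝ) (he : 0 < e) : ∃ a : ℕ, 1 ≤ a ∧
    Real.exp (-(e / gam a W)) + Real.exp (-(e * a)) ≤ 1 := by
  have h1 := gam_le_exp W (e / 2) (by positivity)
  have h2 : ∀ᶠ a : ℕ in Filter.atTop, (2 * (1 + 1 / e) / e : ℝ) ≤ a :=
    tendsto_natCast_atTop_atTop.eventually_ge_atTop _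
  obtain ⟨a, h1, h2, h3⟩ := (h1.and (h2.and (Filter.eventually_ge_atTop 1))).exists
  refine ⟨a, h3, ?_⟩
  have hg : (1 : ℝ) ≤ gam a W := by exact_mod_cast gam_pos a W
  set G : ℝ := ((gam a W : ℕ) : ℝ) with hG
  have h4 : 1 + 1 / e ≤ Real.exp (e / 2 * a) := by
    rw [div_le_iff₀ he] at h2
    linarith [Real.add_one_le_exp (e / 2 * a)]
  have h5 : 1 + G / e ≤ Real.exp (e * a) := by
    have : Real.exp (e * a) = Real.exp (e / 2 * a) * Real.exp (e / 2 * a) := by
      rw [← Real.exp_add]; ring_nf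
    rw [this]
    calc 1 + G / e ≤ G * (1 + 1 / e) := by
          have : G * (1 + 1 / e) = G + G / e := by ring
          linarith
      _ ≤ _ := mul_le_mul h1 h4 (by positivity) (by positivity)
  have h6 : 1 + e / G ≤ Real.exp (e / G) := by linarith [Real.add_one_le_exp (e / G)]
  rw [Real.exp_neg, Real.exp_neg]
  have h7 : (Real.exp (e / G))⁻¹ ≤ (1 + e / G)⁻¹ := inv_anti₀ (by positivity) h6
  have h8 : (Real.exp (e * a))⁻¹ ≤ (1 + G / e)⁻¹ := inv_anti₀ (by positivity) h5
  have h9 : (1 + e / G)⁻¹ + (1 + G / e)⁻¹ = 1 := by field_simp; ring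
  linarith

/-- **Sparsification.** -/
theorem sparsify (W : ℕ) (ε : ℝ) (hε : 0 < ε) : ∃ K : ℕ,
    ∀ (α : Type) [DecidableEq α] (Ω : Type) (Q : Finset Ω) (τ : Ω → Finset α) (φ : Ω → ℝ)
      (Λ : Finset α) (c : ℝ),
      (∀ (S : Finset (Finset α)) (R : Finset α), (∀ C ∈ S, C ⊆ Λ) → (∀ C ∈ S, C.card ≤ W) →
        S.card ≤ K * Λ.card + 1 → R ⊆ Λ → |corr Q τ φ S R| ≤ c) →
      ∀ S : Finset (Finset α), (∀ C ∈ S, C ⊆ Λ) → (∀ C ∈ S, C.card ≤ W) →
        |corr Q τ φ S ∅| ≤ c * Real.exp (ε * Λ.card) := by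
  obtain ⟨a, ha, hea⟩ := exists_param W (ε / (W + 2)) (by positivity)
  refine ⟨(W + 1) * th a W, fun α _ Ω Q τ φ Λ c hc S hS1 hS2 => ?_⟩
  set S0 := S.filter fun C => ∀ D ∈ S, D ⊆ C → D = C with hS0
  have hinv : Inv Λ W a S0 ∅ :=
    { sub := fun C hC => hS1 C (mem_filter.1 hC).1
      card := fun C hC => hS2 C (mem_filter.1 hC).1
      anti := fun C hC D hD hCD => (mem_filter.1 hD).2 C (mem_filter.1 hC).1 hCD
      nsub := empty_subset _
      npos := by simp
      ndeg := by simp [deg] }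
  have hhits : ∀ X, Hits S0 X ↔ Hits S X := by
    intro X
    refine ⟨fun h C hC => ?_, fun h C hC => h C (mem_filter.1 hC).1⟩
    obtain ⟨D, hD, hmin⟩ := exists_min_image (S.filter fun D => D ⊆ C) Finset.card
      ⟨C, mem_filter.2 ⟨hC, Subset.rfl⟩⟩
    rw [mem_filter] at hD
    have hD0 : D ∈ S0 := mem_filter.2 ⟨hD.1, fun E hE hED =>
      eq_of_subset_of_card_le hED (hmin E (mem_filter.2 ⟨hE, hED.trans hD.2⟩))⟩
    exact fun hd => h D hD0 (Disjoint.mono_left hD.2 hd)
  have hcorr : corr Q τ φ S ∅ = corr Q τ φ S0 ∅ := by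
    classical
    unfold corr
    simp only [hhits]
  obtain ⟨n, hn⟩ := exists_nat_gt ((gam a W : ℝ) * (Λ.card - psi a W (∅ : Finset (Finset α))))
  have := sparsify_aux Q τ φ Λ W a ha (ε / (W + 2)) c (by positivity) hea hc n S0 ∅ ∅ hinv
    (empty_subset _) hn
  rw [hcorr]
  convert this using 3
  simp only [psi, sum_empty, sub_zero, sum_const, card_range, nsmul_eq_mul]
  push_cast
  field_simp
  ring

end Crest.Agent.R291
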